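import Crest.Agent.N41.Local.Defs

/-!
# Row 41, module A: the chessboard estimate on `(ℤ/6)^D` and tensor products of RP weights
-/

set_option autoImplicit false
open Finset
open scoped BigOperators

namespace Crest.Agent.N41.Local

/-! ### the hexagon -/

/-- membership in the half `{j+1,j+2,j+3}` -/
def inP (j i : H) : Prop := i = j + 1 ∨ i = j + 2 ∨ i = j + 3

instance (j i : H) : Decidable (inP j i) := by unfold inP; infer_instance

lemma mir_mir : ∀ j i : H, mir j (mir j i) = i := by decide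
lemma mir_add_three : ∀ j i : H, mir (j + 3) i = mir j i := by decide
lemma fold_mir : ∀ j i : H, fold j (mir j i) = fold j i := by decide
lemma fold3_mir : ∀ j i : H, fold (j + 3) (mir j i) = fold (j + 3) i := by decide
lemma mir_fold : ∀ j i : H, mir j (fold j i) = fold (j + 3) i := by decide
lemma mir_fold3 : ∀ j i : H, mir j (fold (j + 3) i) = fold j i := by decide
lemma fold_of_inP : ∀ j i : H, inP j i → fold j i = i := by decide
lemma fold3_of_inP : ∀ j i : H, inP j i → fold (j + 3) i = mir j i := by decide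
lemma inP_mir : ∀ j i : H, inP j (mir j i) ↔ ¬ inP j i := by decide
lemma inP_fold : ∀ j i : H, inP j (fold j i) := by decide
lemma not_inP_fold3 : ∀ j i : H, ¬ inP j (fold (j + 3) i) := by decide
lemma fold_fold : ∀ j i : H, fold j (fold j i) = fold j i := by decide
lemma fold_fold3 : ∀ j i : H, fold j (fold (j + 3) i) = fold j i := by decide
lemma add_three_add_three : ∀ j : H, j + 3 + 3 = j := by decide
lemma fold_collapse : ∀ i : H, fold 4 (fold 3 (fold 2 i)) = 5 := by decide

/-! ### maps acting in one direction -/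

section dir
variable {D : ℕ}

@[simp] lemma dir_apply_same (i : Fin D) (ψ : H → H) (c : Om D) : dir i ψ c i = ψ (c i) := by
  simp [dir]

lemma dir_apply_ne {i l : Fin D} (h : l ≠ i) (ψ : H → H) (c : Om D) : dir i ψ c l = c l := by
  simp [dir, h]

lemma dir_dir (i : Fin D) (ψ ψ' : H → H) (c : Om D) :
    dir i ψ (dir i ψ' c) = dir i (fun t => ψ (ψ' t)) c := by
  simp [dir]

lemma dir_congr (i : Fin D) {ψ ψ' : H → H} {c : Om D} (h : ψ (c i) = ψ' (c i)) :
    dir i ψ c = dir i ψ' c := by
  simp [dir, h]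

lemma dir_eq_self (i : Fin D) {ψ : H → H} {c : Om D} (h : ψ (c i) = c i) : dir i ψ c = c := by
  simp [dir, h]

lemma dir_mir_mir (i : Fin D) (j : H) (c : Om D) : dir i (mir j) (dir i (mir j) c) = c := by
  rw [dir_dir]; exact dir_eq_self i (mir_mir _ _)

lemma dir_mir_invol (i : Fin D) (j : H) : Function.Involutive (dir i (mir j) : Om D → Om D) :=
  dir_mir_mir i j

lemma dir_mir_fold (i : Fin D) (j : H) (c : Om D) :
    dir i (mir j) (dir i (fold j) c) = dir i (fold (j + 3)) c := by
  rw [dir_dir]; exact dir_congr i (mir_fold _ _)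

lemma dir_mir_fold3 (i : Fin D) (j : H) (c : Om D) :
    dir i (mir j) (dir i (fold (j + 3)) c) = dir i (fold j) c := by
  rw [dir_dir]; exact dir_congr i (mir_fold3 _ _)

lemma dir_fold_mir (i : Fin D) (j : H) (c : Om D) :
    dir i (fold j) (dir i (mir j) c) = dir i (fold j) c := by
  rw [dir_dir]; exact dir_congr i (fold_mir _ _)

lemma dir_fold3_mir (i : Fin D) (j : H) (c : Om D) :
    dir i (fold (j + 3)) (dir i (mir j) c) = dir i (fold (j + 3)) c := by
  rw [dir_dir]; exact dir_congr i (fold3_mir _ _)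

/-- the positive half of the torus for the mirror `j` in direction `i` -/
def half (i : Fin D) (j : H) : Finset (Om D) := univ.filter fun c => inP j (c i)

lemma mem_half {i : Fin D} {j : H} {c : Om D} : c ∈ half i j ↔ inP j (c i) := by simp [half]

lemma prod_split (i : Fin D) (j : H) (u : Om D → ℝ) :
    ∏ c, u c = (∏ c ∈ half i j, u c) * ∏ c ∈ half i j, u (dir i (mir j) c) := by
  rw [← prod_filter_mul_prod_filter_not univ (fun c : Om D => inP j (c i))]
  congr 1
  symm
  refine prod_nbij' (dir i (mir j)) (dir i (mir j)) ?_ ?_ ?_ ?_ ?_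
  · intro c hc
    simp only [mem_filter, mem_univ, true_and, dir_apply_same, inP_mir, not_not]
    exact mem_half.1 hc
  · intro c hc
    rw [mem_half, dir_apply_same, inP_mir]
    simpa using hc
  · intro c _; exact dir_mir_mir i j c
  · intro c _; exact dir_mir_mir i j c
  · intro c _; rfl

lemma dir_fold_of_mem {i : Fin D} {j : H} {c : Om D} (hc : c ∈ half i j) :
    dir i (fold j) c = c := dir_eq_self i (fold_of_inP _ _ (mem_half.1 hc))

lemma dir_fold3_of_mem {i : Fin D} {j : H} {c : Om D} (hc : c ∈ half i j) :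
    dir i (fold (j + 3)) c = dir i (mir j) c := dir_congr i (fold3_of_inP _ _ (mem_half.1 hc))

lemma prod_fold_mul_prod_fold3 (i : Fin D) (j : H) (m : Om D → ℝ) :
    (∏ c, m (dir i (fold j) c)) * ∏ c, m (dir i (fold (j + 3)) c) = (∏ c, m c) ^ 2 := by
  rw [prod_split i j fun c => m (dir i (fold j) c), prod_split i j fun c => m (dir i (fold (j + 3)) c),
    prod_split i j m]
  simp only [dir_fold_mir, dir_fold3_mir]
  rw [prod_congr rfl fun c hc => congrArg m (dir_fold_of_mem hc),
    prod_congr rfl fun c hc => congrArg m (dir_fold3_of_mem hc)]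
  ring

end dir

/-! ### Cauchy–Schwarz from reflection positivity -/

section CS
variable {D : ℕ} {V : Type} [Fintype V]

/-- the bilinear form of a mirror -/
def bil (n : (Om D → V) → ℝ) (i : Fin D) (j : H) (F G : (Om D → V) → ℝ) : ℝ :=
  ∑ x, n x * (F (x ∘ dir i (fold j)) * G (x ∘ dir i (fold (j + 3))))

lemma sum_comp_mir (i : Fin D) (j : H) (Φ : (Om D → V) → ℝ) :
    ∑ x : Om D → V, Φ (x ∘ dir i (mir j)) = ∑ x, Φ x := by
  have hinv : Function.Involutive fun x : Om D → V => x ∘ dir i (mir j) := by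
    intro x; funext c; simp [dir_mir_mir]
  exact Fintype.sum_equiv hinv.toPerm _ _ fun _ => rfl

lemma RP.bil_symm {n : (Om D → V) → ℝ} (hn : RP n) (i : Fin D) (j : H)
    (F G : (Om D → V) → ℝ) : bil n i j F G = bil n i j G F := by
  unfold bil
  rw [← sum_comp_mir i j]
  refine sum_congr rfl fun x _ => ?_
  rw [(hn i j).1 x]
  have h1 : (x ∘ dir i (mir j)) ∘ dir i (fold j) = x ∘ dir i (fold (j + 3)) := by
    funext c; simp [dir_mir_fold]
  have h2 : (x ∘ dir i (mir j)) ∘ dir i (fold (j + 3)) = x ∘ dir i (fold j) := by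
    funext c; simp [dir_mir_fold3]
  rw [h1, h2]; ring

lemma RP.bil_nonneg {n : (Om D → V) → ℝ} (hn : RP n) (i : Fin D) (j : H)
    (F : (Om D → V) → ℝ) : 0 ≤ bil n i j F F := (hn i j).2 F

lemma RP.bil_sq_le {n : (Om D → V) → ℝ} (hn : RP n) (i : Fin D) (j : H)
    (F G : (Om D → V) → ℝ) : bil n i j F G ^ 2 ≤ bil n i j F F * bil n i j G G := by
  have h : ∀ t : ℝ, 0 ≤ bil n i j G G * (t * t) + 2 * bil n i j F G * t + bil n i j F F := by
    intro t
    have h0 := hn.bil_nonneg i j fun x => F x + t * G x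
    have h1 : bil n i j (fun x => F x + t * G x) (fun x => F x + t * G x) =
        bil n i j G G * (t * t) + (bil n i j F G + bil n i j G F) * t + bil n i j F F := by
      unfold bil
      simp only [sum_mul, add_mul, ← sum_add_distrib]
      exact sum_congr rfl fun x _ => by ring
    rw [h1, hn.bil_symm i j G F] at h0
    linarith
  have := discrim_le_zero h
  unfold discrim at this
  nlinarith

lemma Lam_eq_bil (n : (Om D → V) → ℝ) (i : Fin D) (j : H) (g : Om D → V → ℝ) :
    Lam n g = bil n i j (fun x => ∏ c ∈ half i j, g c (x c))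
      (fun x => ∏ c ∈ half i j, g (dir i (mir j) c) (x c)) := by
  unfold Lam bil
  refine sum_congr rfl fun x _ => ?_
  rw [prod_split i j fun c => g c (x c)]
  congr 2
  · exact prod_congr rfl fun c hc => by simp [dir_fold_of_mem hc]
  · exact prod_congr rfl fun c hc => by simp [dir_fold3_of_mem hc]

lemma RP.Lam_fold_nonneg {n : (Om D → V) → ℝ} (hn : RP n) (i : Fin D) (j : H)
    (g : Om D → V → ℝ) : 0 ≤ Lam n fun c => g (dir i (fold j) c) := by
  rw [Lam_eq_bil n i j]
  simp only [dir_fold_mir]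
  exact hn.bil_nonneg i j _

lemma RP.Lam_sq_le {n : (Om D → V) → ℝ} (hn : RP n) (i : Fin D) (j : H) (g : Om D → V → ℝ) :
    Lam n g ^ 2 ≤ (Lam n fun c => g (dir i (fold j) c)) *
      Lam n fun c => g (dir i (fold (j + 3)) c) := by
  rw [Lam_eq_bil n i j g, Lam_eq_bil n i j fun c => g (dir i (fold j) c),
    Lam_eq_bil n i j fun c => g (dir i (fold (j + 3)) c)]
  simp only [dir_fold_mir, dir_fold3_mir]
  have e1 : (fun x : Om D → V => ∏ c ∈ half i j, g (dir i (fold j) c) (x c)) =
      fun x => ∏ c ∈ half i j, g c (x c) := by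
    funext x; exact prod_congr rfl fun c hc => by rw [dir_fold_of_mem hc]
  have e2 : (fun x : Om D → V => ∏ c ∈ half i j, g (dir i (fold (j + 3)) c) (x c)) =
      fun x => ∏ c ∈ half i j, g (dir i (mir j) c) (x c) := by
    funext x; exact prod_congr rfl fun c hc => by rw [dir_fold3_of_mem hc]
  rw [e1, e2]
  exact hn.bil_sq_le i j _ _

end CS

/-! ### the chessboard estimate -/

/-- abstract chessboard argument: maximisers are closed under folds, and folds collapse the torus -/
lemma chess_abstract {D : ℕ} (T : (Om D → Om D) → ℝ) (h0 : ∀ Ψ, 0 ≤ T Ψ)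
    (hcs : ∀ Ψ i j, T Ψ ^ 2 ≤ T (Ψ ∘ dir i (fold j)) * T (Ψ ∘ dir i (fold (j + 3))))
    (hc : ∀ c : Om D, T (fun _ => c) ≤ 1) (Ψ : Om D → Om D) : T Ψ ≤ 1 := by
  classical
  obtain ⟨Ψ0, -, hmax⟩ := exists_max_image (univ : Finset (Om D → Om D)) T univ_nonempty
  have hmax' : ∀ Ψ, T Ψ ≤ T Ψ0 := fun Ψ => hmax Ψ (mem_univ _)
  rcases (h0 Ψ0).eq_or_lt with h | hpos
  · linarith [hmax' Ψ]
  have hcl : ∀ Ψ i j, T Ψ = T Ψ0 → T (Ψ ∘ dir i (fold j)) = T Ψ0 := by
    intro Ψ i j hΨ
    have h1 := hcs Ψ i j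
    rw [hΨ] at h1
    have h2 := hmax' (Ψ ∘ dir i (fold j))
    have h3 := hmax' (Ψ ∘ dir i (fold (j + 3)))
    have h4 := h0 (Ψ ∘ dir i (fold j))
    have h5 : T Ψ0 * T Ψ0 ≤ T (Ψ ∘ dir i (fold j)) * T Ψ0 := by nlinarith
    exact le_antisymm h2 (le_of_mul_le_mul_right h5 hpos)
  have hS : ∀ S : Finset (Fin D),
      T (Ψ0 ∘ fun c i => if i ∈ S then (5 : H) else c i) = T Ψ0 := by
    intro S
    induction S using Finset.induction_on with
    | empty => simp only [notMem_empty, if_false]; rfl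
    | insert i S hi ih =>
      have h1 := hcl _ i 2 (hcl _ i 3 (hcl _ i 4 ih))
      rw [← h1]
      congr 1
      funext c
      simp only [Function.comp_apply, dir_dir, fold_collapse]
      congr 1
      funext l
      by_cases hl : l = i
      · subst hl; simp [hi]
      · simp [hl, dir_apply_ne hl]
  have h1 := hS univ
  have h2 := hc (Ψ0 fun _ => 5)
  have h3 : (Ψ0 ∘ fun (c : Om D) i => if i ∈ (univ : Finset (Fin D)) then (5 : H) else c i) =
      fun _ => Ψ0 fun _ => 5 := by
    funext c; simp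
  rw [h3] at h1
  linarith [hmax' Ψ]

section chess
variable {D : ℕ} {V : Type} [Fintype V]

lemma card_Om (D : ℕ) : Fintype.card (Om D) = 6 ^ D := by simp [Om]

lemma RP.Lam_const_nonneg {n : (Om D → V) → ℝ} (hn : RP n) (hD : 0 < D) (f : V → ℝ) :
    0 ≤ Lam n fun _ => f := hn.Lam_fold_nonneg ⟨0, hD⟩ 0 fun _ => f

lemma RP.chess_pos {n : (Om D → V) → ℝ} (hn : RP n) (g : Om D → V → ℝ) (m : Om D → ℝ)
    (hm : ∀ c, 0 < m c) (h : ∀ c, |Lam n fun _ => g c| ≤ m c ^ 6 ^ D) :
    |Lam n g| ≤ ∏ c, m c := by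
  have hpos : ∀ Ψ : Om D → Om D, 0 < ∏ c, m (Ψ c) := fun Ψ => prod_pos fun c _ => hm _
  have := chess_abstract (fun Ψ => |Lam n fun c => g (Ψ c)| / ∏ c, m (Ψ c))
    (fun Ψ => div_nonneg (abs_nonneg _) (hpos Ψ).le) ?_ ?_ id
  · rwa [div_le_one (hpos id)] at this
  · intro Ψ i j
    simp only [Function.comp_apply]
    rw [div_mul_div_comm, prod_fold_mul_prod_fold3 i j fun c => m (Ψ c), div_pow, sq_abs]
    refine div_le_div_of_nonneg_right ?_ (by positivity)
    refine (hn.Lam_sq_le i j fun c => g (Ψ c)).trans ?_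
    rw [← abs_mul]; exact le_abs_self _
  · intro c
    rw [div_le_one (hpos fun _ => c), prod_const, card_univ, card_Om]
    exact h c

/-- **Chessboard estimate**, bound form. -/
theorem RP.chess_le {n : (Om D → V) → ℝ} (hn : RP n) (g : Om D → V → ℝ) (m : Om D → ℝ)
    (hm : ∀ c, 0 ≤ m c) (h : ∀ c, |Lam n fun _ => g c| ≤ m c ^ 6 ^ D) :
    |Lam n g| ≤ ∏ c, m c := by
  have hcont : Continuous fun δ : ℝ => ∏ c, (m c + δ) := by fun_prop
  have hlim : Filter.Tendsto (fun δ : ℝ => ∏ c, (m c + δ)) (nhdsWithin 0 (Set.Ioi 0))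
      (nhds (∏ c, m c)) := by
    have := (hcont.tendsto 0).mono_left (nhdsWithin_le_nhds (s := Set.Ioi 0))
    simpa using this
  refine ge_of_tendsto hlim ?_
  filter_upwards [self_mem_nhdsWithin] with δ hδ
  have hδ' : 0 < δ := hδ
  refine hn.chess_pos g _ (fun c => by linarith [hm c]) fun c => (h c).trans ?_
  exact pow_le_pow_left₀ (hm c) (by linarith) _

lemma nrm_nonneg {n : (Om D → V) → ℝ} (hn : RP n) (hD : 0 < D) (f : V → ℝ) : 0 ≤ nrm n f :=
  Real.rpow_nonneg (hn.Lam_const_nonneg hD f) _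

lemma nrm_pow {n : (Om D → V) → ℝ} (hn : RP n) (hD : 0 < D) (f : V → ℝ) :
    nrm n f ^ 6 ^ D = Lam n fun _ => f := by
  unfold nrm
  rw [one_div]
  exact Real.rpow_inv_natCast_pow (hn.Lam_const_nonneg hD f) (by positivity)

/-- **Chessboard estimate**. -/
theorem chessboard {n : (Om D → V) → ℝ} (hn : RP n) (hD : 0 < D) (g : Om D → V → ℝ) :
    |Lam n g| ≤ ∏ c, nrm n (g c) :=
  hn.chess_le g _ (fun c => nrm_nonneg hn hD _) fun c => by
    rw [nrm_pow hn hD, abs_of_nonneg (hn.Lam_const_nonneg hD _)]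

lemma nrm_le_of_Lam_le {n : (Om D → V) → ℝ} (hn : RP n) (hD : 0 < D) {f : V → ℝ} {m : ℝ}
    (hm : 0 ≤ m) (h : (Lam n fun _ => f) ≤ m ^ 6 ^ D) : nrm n f ≤ m := by
  rw [← nrm_pow hn hD] at h
  exact (pow_le_pow_iff_left₀ (nrm_nonneg hn hD f) hm (by positivity)).1 h

end chess

/-! ### tensor products -/

section tensor
open Matrix
variable {D : ℕ}

open Classical in
/-- the kernel of the bilinear form of a mirror -/
noncomputable def kerM {V : Type} [Fintype V] (n : (Om D → V) → ℝ) (i : Fin D) (j : H) :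
    Matrix (Om D → V) (Om D → V) ℝ := fun u v =>
  ∑ x, n x * ((if x ∘ dir i (fold j) = u then 1 else 0) *
    (if x ∘ dir i (fold (j + 3)) = v then 1 else 0))

lemma bil_eq_kerM {V : Type} [Fintype V] (n : (Om D → V) → ℝ) (i : Fin D) (j : H)
    (F : (Om D → V) → ℝ) : bil n i j F F = star F ⬝ᵥ (kerM n i j *ᵥ F) := by
  classical
  simp only [bil, kerM, dotProduct, mulVec, star_trivial, sum_mul, mul_sum]
  symm
  rw [sum_congr rfl fun u _ => sum_comm, sum_comm]
  refine sum_congr rfl fun x _ => ?_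
  simp [mul_ite, mul_comm, mul_left_comm]

lemma RP.kerM_psd {V : Type} [Fintype V] {n : (Om D → V) → ℝ} (hn : RP n) (i : Fin D) (j : H) :
    (kerM n i j).PosSemidef := by
  classical
  refine PosSemidef.of_dotProduct_mulVec_nonneg ?_ fun F => ?_
  · ext u v
    have := hn.bil_symm i j (fun x => if x = v then 1 else 0) (fun x => if x = u then 1 else 0)
    simp only [conjTranspose_apply, star_trivial, kerM]
    convert this using 1 <;> unfold bil <;> refine sum_congr rfl fun x _ => ?_ <;> congr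
  · rw [← bil_eq_kerM]; exact hn.bil_nonneg i j F

lemma psd_prod {ι X : Type} [Fintype X] (s : Finset ι) (M : ι → Matrix X X ℝ)
    (h : ∀ p ∈ s, (M p).PosSemidef) :
    (Matrix.of fun u v => ∏ p ∈ s, M p u v).PosSemidef := by
  classical
  induction s using Finset.induction_on with
  | empty =>
    have := posSemidef_vecMulVec_self_star (fun _ : X => (1 : ℝ))
    convert this using 1
    ext u v; simp [vecMulVec]
  | insert a s ha ih =>
    have h1 : (M a ⊙ Matrix.of fun u v => ∏ p ∈ s, M p u v).PosSemidef :=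
      (h a (mem_insert_self _ _)).hadamard (ih fun p hp => h p (mem_insert_of_mem hp))
    have h2 : (Matrix.of fun u v => ∏ p ∈ insert a s, M p u v) =
        M a ⊙ Matrix.of fun u v => ∏ p ∈ s, M p u v := by
      ext u v; simp [prod_insert ha]
    rw [h2]; exact h1

lemma sum_tens_prod {ι : Type} [Fintype ι] [DecidableEq ι] {V : ι → Type} [∀ p, Fintype (V p)]
    (Φ : ∀ p, (Om D → V p) → ℝ) :
    ∑ x : Om D → ∀ p, V p, ∏ p, Φ p (fun c => x c p) = ∏ p, ∑ y, Φ p y := by
  classical
  rw [Fintype.prod_sum]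
  exact Fintype.sum_equiv (Equiv.piComm fun (_ : Om D) p => V p) _ _ fun _ => rfl

/-- a tensor product of reflection positive weights is reflection positive -/
theorem RP.tens {ι : Type} [Fintype ι] [DecidableEq ι] {V : ι → Type} [∀ p, Fintype (V p)]
    {n : ∀ p, (Om D → V p) → ℝ} (hn : ∀ p, RP (n p)) : RP (tens n) := by
  classical
  intro i j
  refine ⟨fun x => prod_congr rfl fun p _ => (hn p i j).1 fun c => x c p, fun F => ?_⟩
  have h1 := psd_prod univ (fun p => (kerM (n p) i j).submatrix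
    (fun (u : Om D → ∀ p, V p) c => u c p) (fun (u : Om D → ∀ p, V p) c => u c p))
    fun p _ => ((hn p).kerM_psd i j).submatrix _
  have h2 : kerM (Local.tens n) i j = Matrix.of fun u v => ∏ p, (kerM (n p) i j).submatrix
      (fun (u : Om D → ∀ p, V p) c => u c p) (fun (u : Om D → ∀ p, V p) c => u c p) u v := by
    ext u v
    simp only [kerM, of_apply, submatrix_apply]
    rw [← sum_tens_prod]
    refine sum_congr rfl fun x _ => ?_
    rw [prod_mul_distrib, prod_mul_distrib, prod_boole, prod_boole]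
    congr 2
    · congr 1
      refine propext ⟨fun h p _ => by rw [← h]; rfl, fun h => ?_⟩
      funext c p; exact congrFun (h p (mem_univ _)) c
    · congr 1
      refine propext ⟨fun h p _ => by rw [← h]; rfl, fun h => ?_⟩
      funext c p; exact congrFun (h p (mem_univ _)) c
  have h3 := bil_eq_kerM (Local.tens n) i j F
  rw [h2] at h3
  change 0 ≤ bil (Local.tens n) i j F F
  rw [h3]
  exact h1.dotProduct_mulVec_nonneg F

end tensor

end Crest.Agent.N41.Local
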