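import Mathlib

/-!
# Row 41, module A: reflection positivity on the torus `(ℤ/6)^D` — definitions

* `H`, `Om D` : the hexagon and the torus;
* `mir j`, `fold j` : the mirror `i ↦ 2j+1-i` and the fold onto `{j+1,j+2,j+3}`
  (the opposite fold is `fold (j+3)`);
* `RP n` : the weight `n` on configurations `Om D → V` is invariant under all mirrors and
  reflection positive;
* `Lam n g` : the multilinear form `∑ x, n x * ∏ c, g c (x c)`, `nrm n f` the chessboard norm;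
* `LocalLaw` : the output of the local construction.
-/

set_option autoImplicit false
open Finset
open scoped BigOperators

namespace Crest.Agent.N41.Local

/-- the hexagon -/
abbrev H : Type := Fin 6

/-- the torus `(ℤ/6)^D` -/
abbrev Om (D : ℕ) : Type := Fin D → H

/-- the mirror `i ↦ 2j+1-i` of the hexagon -/
def mir (j i : H) : H := 2 * j + 1 - i

/-- the fold of the hexagon onto the half `{j+1,j+2,j+3}` -/
def fold (j i : H) : H := if i = j + 1 ∨ i = j + 2 ∨ i = j + 3 then i else mir j i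

/-- a map of the hexagon acting in direction `i` of the torus -/
def dir {D : ℕ} (i : Fin D) (ψ : H → H) (c : Om D) : Om D := Function.update c i (ψ (c i))

/-- the two distinguished points `a = (0,…,0)` and `b = (2,…,2)` -/
def ptA (D : ℕ) : Om D := fun _ => 0
/-- the two distinguished points `a = (0,…,0)` and `b = (2,…,2)` -/
def ptB (D : ℕ) : Om D := fun _ => 2

/-- Mirror invariance and reflection positivity of a weight on configurations. -/
def RP {D : ℕ} {V : Type} [Fintype V] (n : (Om D → V) → ℝ) : Prop :=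
  ∀ (i : Fin D) (j : H), (∀ x : Om D → V, n (x ∘ dir i (mir j)) = n x) ∧
    ∀ F : (Om D → V) → ℝ,
      0 ≤ ∑ x, n x * (F (x ∘ dir i (fold j)) * F (x ∘ dir i (fold (j + 3))))

/-- the multilinear form of a weight -/
def Lam {D : ℕ} {V : Type} [Fintype V] (n : (Om D → V) → ℝ) (g : Om D → V → ℝ) : ℝ :=
  ∑ x, n x * ∏ c, g c (x c)

/-- the chessboard norm `‖f‖ = Λ(f,…,f)^(1/6^D)` -/
noncomputable def nrm {D : ℕ} {V : Type} [Fintype V] (n : (Om D → V) → ℝ) (f : V → ℝ) : ℝ :=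
  (Lam n fun _ => f) ^ ((1 : ℝ) / ((6 ^ D : ℕ) : ℝ))

/-- the tensor product of weights -/
def tens {D : ℕ} {ι : Type} [Fintype ι] {V : ι → Type} (n : ∀ p, (Om D → V p) → ℝ)
    (x : Om D → ∀ p, V p) : ℝ := ∏ p, n p (fun c => x c p)

/-- `‖k - 1‖_{L² → L²} ≤ σ` for the kernel `k(s,t) = k0 (t - s)` -/
def OpSmall {V : Type} [AddCommGroup V] [Fintype V] (k0 : V → ℝ) (σ : ℝ) : Prop :=
  ∀ u v : V → ℝ, (𝔼 s, 𝔼 t, u s * v t * (k0 (t - s) - 1)) ^ 2 ≤
    σ ^ 2 * (𝔼 s, u s ^ 2) * (𝔼 t, v t ^ 2)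

/-- The local law `ν = nf + fail` at one prime. -/
structure LocalLaw (D : ℕ) (V : Type) [AddCommGroup V] [Fintype V] (k0 : V → ℝ)
    (C β ρ : ℝ) where
  /-- the part carrying the factor `k0 (x b - x a)` -/
  nf : (Om D → V) → ℝ
  /-- the small remainder -/
  fail : (Om D → V) → ℝ
  nf_nonneg : ∀ x, 0 ≤ nf x
  fail_nonneg : ∀ x, 0 ≤ fail x
  total : ∑ x, (nf x + fail x) = 1
  rp : RP fun x => nf x + fail x
  nf_shift : ∀ (x : Om D → V) (t : V), nf (fun c => x c + t) = nf x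
  fail_shift : ∀ (x : Om D → V) (t : V), fail (fun c => x c + t) = fail x
  fail_mass : ∑ x, fail x ≤ β
  pair : ∀ F : V → V → ℝ, (∀ s t, 0 ≤ F s t) →
    ∑ x, nf x * F (x (ptA D)) (x (ptB D)) ≤ C * 𝔼 s, 𝔼 t, k0 (t - s) * F s t
  maxcorr : ∀ (w : Om D) (g : V → ℝ) (G : (Om D → V) → ℝ), ∑ s, g s = 0 →
    (∀ x s, G (Function.update x w s) = G x) →
    (∑ x, (nf x + fail x) * (g (x w) * G x)) ^ 2 ≤
      ρ ^ 2 * (𝔼 s, g s ^ 2) * ∑ x, (nf x + fail x) * G x ^ 2

/-- The statement of module A (proved as `localLaw` in `N41/Local/Main.lean`). -/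
def LocalLawStmt : Prop :=
  ∀ (D : ℕ) (K : ℝ), ∃ C σ0 : ℝ, 1 ≤ C ∧ 0 < σ0 ∧
    ∀ (V : Type) [AddCommGroup V] [Fintype V] (k0 : V → ℝ) (σ : ℝ),
      (∀ t, 0 ≤ k0 t) → (∀ t, k0 t ≤ K) → OpSmall k0 σ → 0 ≤ σ → σ ≤ σ0 →
      Nonempty (LocalLaw D V k0 C (C * σ ^ D) (C * √σ))

end Crest.Agent.N41.Local
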