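import Crest.Agent.N41.Local.Defs

/-!
# Row 41, module A: resampling lemmas and the edge lemma on a finite product space
-/

set_option autoImplicit false
open Finset
open scoped BigOperators

namespace Crest.Agent.N41.Local

section resample
variable {X V : Type} [Fintype X] [DecidableEq X] [Fintype V] [Nonempty V]

lemma expect_update (c : X) (G : (X → V) → ℝ) :
    𝔼 y, G y = 𝔼 y, 𝔼 s, G (Function.update y c s) := by
  have hinv : Function.Involutive fun p : (X → V) × V => (Function.update p.1 c p.2, p.1 c) := by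
    intro p; simp
  have h1 : 𝔼 p : (X → V) × V, G (Function.update p.1 c p.2) = 𝔼 p : (X → V) × V, G p.1 :=
    Fintype.expect_equiv hinv.toPerm _ _ fun _ => rfl
  rw [← univ_product_univ, expect_product, expect_product] at h1
  simp only [expect_const univ_nonempty] at h1
  exact h1.symm

lemma expect_piecewise (S : Finset X) (G : (X → V) → ℝ) :
    𝔼 y, G y = 𝔼 y : X → V, 𝔼 z : X → V, G (S.piecewise y z) := by
  have hinv : Function.Involutive
      fun p : (X → V) × (X → V) => (S.piecewise p.1 p.2, S.piecewise p.2 p.1) := by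
    intro p
    ext c <;> by_cases hc : c ∈ S <;> simp [hc]
  have h1 : 𝔼 p : (X → V) × (X → V), G (S.piecewise p.1 p.2) =
      𝔼 p : (X → V) × (X → V), G p.1 :=
    Fintype.expect_equiv hinv.toPerm _ _ fun _ => rfl
  rw [← univ_product_univ, expect_product, expect_product] at h1
  simp only [expect_const univ_nonempty] at h1
  exact h1.symm

lemma expect_indep (S : Finset X) (a b : (X → V) → ℝ)
    (ha : ∀ y z, a (S.piecewise y z) = a y) (hb : ∀ y z, b (S.piecewise y z) = b z) :
    𝔼 y, a y * b y = (𝔼 y, a y) * 𝔼 y, b y := by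
  rw [expect_piecewise S, expect_mul_expect]
  simp only [ha, hb]

lemma expect_coord (c : X) (g : V → ℝ) : 𝔼 y : X → V, g (y c) = 𝔼 s, g s := by
  rw [expect_update c]
  simp

lemma expect_two_coord {c d : X} (h : c ≠ d) (g : V → V → ℝ) :
    𝔼 y : X → V, g (y c) (y d) = 𝔼 s, 𝔼 t, g s t := by
  rw [expect_update c]
  simp only [Function.update_self, Function.update_of_ne h.symm]
  rw [expect_comm]
  exact expect_congr rfl fun s _ => expect_coord d (g s)

end resample

/-- `a` does not depend on the coordinate `c` -/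
def Ind {X V : Type} [DecidableEq X] (c : X) (a : (X → V) → ℝ) : Prop :=
  ∀ y s, a (Function.update y c s) = a y

lemma Ind.mul {X V : Type} [DecidableEq X] {c : X} {a b : (X → V) → ℝ} (ha : Ind c a)
    (hb : Ind c b) : Ind c fun y => a y * b y := fun y s => by simp only [ha y s, hb y s]

/-- the product of the kernel over a set of oriented edges -/
def PE {X V : Type} [AddCommGroup V] (k0 : V → ℝ) (E : Finset (X × X)) (y : X → V) : ℝ :=
  ∏ e ∈ E, k0 (y e.2 - y e.1)

/-- the `L²` norm -/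
noncomputable def nm {Y : Type} [Fintype Y] (a : Y → ℝ) : ℝ := √(𝔼 y, a y ^ 2)

lemma nm_nonneg {Y : Type} [Fintype Y] (a : Y → ℝ) : 0 ≤ nm a := Real.sqrt_nonneg _

lemma expect_sq_nonneg {Y : Type} [Fintype Y] (a : Y → ℝ) : 0 ≤ 𝔼 y, a y ^ 2 :=
  expect_nonneg fun _ _ => sq_nonneg _

lemma nm_sq {Y : Type} [Fintype Y] (a : Y → ℝ) : nm a ^ 2 = 𝔼 y, a y ^ 2 :=
  Real.sq_sqrt (expect_sq_nonneg a)

lemma nm_mul_le {Y : Type} [Fintype Y] (a p : Y → ℝ) {M : ℝ} (hM : 0 ≤ M)
    (hp : ∀ y, |p y| ≤ M) : nm (fun y => a y * p y) ≤ M * nm a := by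
  refine Real.sqrt_le_iff.2 ⟨mul_nonneg hM (nm_nonneg a), ?_⟩
  rw [mul_pow, nm_sq, mul_expect]
  refine expect_le_expect fun y _ => ?_
  rw [mul_pow, mul_comm]
  refine mul_le_mul_of_nonneg_right ?_ (sq_nonneg _)
  rw [← sq_abs]
  exact pow_le_pow_left₀ (abs_nonneg _) (hp y) 2

lemma expect_mul_le_nm {Y : Type} [Fintype Y] (a b : Y → ℝ) :
    𝔼 y, a y * b y ≤ nm a * nm b := by
  refine le_trans (le_abs_self _) (abs_le_of_sq_le_sq' ?_ (mul_nonneg (nm_nonneg a) (nm_nonneg b))
    |> fun h => abs_le.2 h)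
  rw [mul_pow, nm_sq, nm_sq]
  exact expect_mul_sq_le_sq_mul_sq _ _ _

section edge
variable {X V : Type} [Fintype X] [DecidableEq X] [Fintype V] [AddCommGroup V]
  {k0 : V → ℝ} {K σ : ℝ}

omit [Fintype X] [Fintype V] [DecidableEq X] in
lemma PE_nonneg (h0 : ∀ t, 0 ≤ k0 t) (E : Finset (X × X)) (y : X → V) : 0 ≤ PE k0 E y :=
  prod_nonneg fun _ _ => h0 _

omit [Fintype X] [Fintype V] [DecidableEq X] in
lemma PE_le (h0 : ∀ t, 0 ≤ k0 t) (hK : ∀ t, k0 t ≤ K) (E : Finset (X × X)) (y : X → V) :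
    PE k0 E y ≤ K ^ E.card := by
  unfold PE
  rw [← prod_const]
  exact prod_le_prod (fun _ _ => h0 _) fun _ _ => hK _

omit [Fintype X] [Fintype V] in
lemma PE_le_of_subset (h0 : ∀ t, 0 ≤ k0 t) (hK : ∀ t, k0 t ≤ K) (h1 : 1 ≤ K)
    {E E' : Finset (X × X)} (h : E' ⊆ E) {N : ℕ} (hN : E.card ≤ N) (y : X → V) :
    PE k0 E y ≤ K ^ N * PE k0 E' y := by
  have h2 : PE k0 E y = PE k0 (E \ E') y * PE k0 E' y := (prod_sdiff h).symm
  rw [h2]
  refine mul_le_mul_of_nonneg_right ((PE_le h0 hK _ y).trans ?_) (PE_nonneg h0 _ y)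
  exact pow_le_pow_right₀ h1 ((card_le_card sdiff_subset).trans hN)

omit [Fintype X] [Fintype V] in
lemma PE_ind {E : Finset (X × X)} {c : X} (h : ∀ e ∈ E, e.1 ≠ c ∧ e.2 ≠ c) :
    Ind c (PE k0 E) := fun y s =>
  prod_congr rfl fun e he => by
    rw [Function.update_of_ne (h e he).1, Function.update_of_ne (h e he).2]

/-- the edge lemma -/
lemma edge_one (hop : OpSmall k0 σ) (hσ : 0 ≤ σ) {c d : X} (hcd : c ≠ d)
    {a b : (X → V) → ℝ} (ha : Ind d a) (hb : Ind c b) :
    |𝔼 y, a y * b y * (k0 (y d - y c) - 1)| ≤ σ * (nm a * nm b) := by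
  have key : ∀ y : X → V, |𝔼 s, 𝔼 t, a (Function.update y c s) * b (Function.update y d t) *
      (k0 (t - s) - 1)| ≤ σ * (nm (fun s => a (Function.update y c s)) *
        nm fun t => b (Function.update y d t)) := by
    intro y
    refine abs_le.2 (abs_le_of_sq_le_sq' ?_
      (mul_nonneg hσ (mul_nonneg (nm_nonneg _) (nm_nonneg _))))
    rw [mul_pow, mul_pow, nm_sq, nm_sq, ← mul_assoc]
    exact hop _ _
  have h1 : 𝔼 y, a y * b y * (k0 (y d - y c) - 1) = 𝔼 y : X → V, 𝔼 s, 𝔼 t,
      a (Function.update y c s) * b (Function.update y d t) * (k0 (t - s) - 1) := by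
    rw [expect_update d]
    rw [expect_update c fun y => 𝔼 t, a (Function.update y d t) * b (Function.update y d t) *
      (k0 (Function.update y d t d - Function.update y d t c) - 1)]
    refine expect_congr rfl fun y _ => expect_congr rfl fun s _ => expect_congr rfl fun t _ => ?_
    rw [ha, Function.update_self, Function.update_of_ne hcd, Function.update_self,
      Function.update_comm hcd, hb]
  rw [h1]
  refine (abs_expect_le _ _).trans ((expect_le_expect fun y _ => key y).trans ?_)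
  rw [← mul_expect]
  refine mul_le_mul_of_nonneg_left ((expect_mul_le_nm _ _).trans (le_of_eq ?_)) hσ
  congr 1
  · unfold nm
    congr 1
    rw [expect_update c fun y => a y ^ 2]
    exact expect_congr rfl fun y _ => nm_sq _
  · unfold nm
    congr 1
    rw [expect_update d fun y => b y ^ 2]
    exact expect_congr rfl fun y _ => nm_sq _

/-- one step of the telescoping -/
lemma edge_step (h0 : ∀ t, 0 ≤ k0 t) (hK : ∀ t, k0 t ≤ K) (hop : OpSmall k0 σ) (hσ : 0 ≤ σ)
    {c d : X} (hcd : c ≠ d) {E : Finset (X × X)} (h1 : ∀ e ∈ E, e.1 ≠ e.2)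
    (h2 : (c, d) ∉ E) (h3 : (d, c) ∉ E)
    {a b : (X → V) → ℝ} (ha : Ind d a) (hb : Ind c b) :
    |𝔼 y, a y * b y * ((k0 (y d - y c) - 1) * PE k0 E y)| ≤ σ * K ^ E.card * (nm a * nm b) := by
  have hK0 : 0 ≤ K := (h0 0).trans (hK 0)
  set E1 := E.filter fun e => e.1 ≠ d ∧ e.2 ≠ d
  set E2 := E.filter fun e => ¬ (e.1 ≠ d ∧ e.2 ≠ d)
  have hsplit : ∀ y, PE k0 E y = PE k0 E1 y * PE k0 E2 y := fun y =>
    (prod_filter_mul_prod_filter_not E _ _).symm
  have hcard : E1.card + E2.card = E.card := card_filter_add_card_filter_not _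
  have hi1 : Ind d (PE k0 E1) := PE_ind fun e he => (mem_filter.1 he).2
  have hi2 : Ind c (PE k0 E2) := by
    refine PE_ind fun e he => ?_
    obtain ⟨he1, he2⟩ := mem_filter.1 he
    obtain ⟨u, v⟩ := e
    have := h1 _ he1
    simp only [ne_eq, not_and_or, not_not] at he2 this ⊢
    constructor
    · rintro rfl
      rcases he2 with h | h
      · exact hcd h
      · subst h; exact h2 he1
    · rintro rfl
      rcases he2 with h | h
      · subst h; exact h3 he1
      · exact hcd h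
  have h4 := edge_one hop hσ hcd (ha.mul hi1) (hb.mul hi2)
  have h5 : 𝔼 y, a y * b y * ((k0 (y d - y c) - 1) * PE k0 E y) =
      𝔼 y, a y * PE k0 E1 y * (b y * PE k0 E2 y) * (k0 (y d - y c) - 1) :=
    expect_congr rfl fun y _ => by rw [hsplit]; ring
  rw [h5]
  refine h4.trans ?_
  have h6 := nm_mul_le a (PE k0 E1) (pow_nonneg hK0 E1.card) fun y => by
    rw [abs_of_nonneg (PE_nonneg h0 _ y)]; exact PE_le h0 hK _ y
  have h7 := nm_mul_le b (PE k0 E2) (pow_nonneg hK0 E2.card) fun y => by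
    rw [abs_of_nonneg (PE_nonneg h0 _ y)]; exact PE_le h0 hK _ y
  rw [mul_assoc]
  refine mul_le_mul_of_nonneg_left ?_ hσ
  calc _ ≤ (K ^ E1.card * nm a) * (K ^ E2.card * nm b) :=
        mul_le_mul h6 h7 (nm_nonneg _) (mul_nonneg (pow_nonneg hK0 _) (nm_nonneg _))
    _ = _ := by rw [← hcard, pow_add]; ring

/-- the telescoped edge lemma for a simple graph of edges -/
lemma edges_le (h0 : ∀ t, 0 ≤ k0 t) (hK : ∀ t, k0 t ≤ K) (hK1 : 1 ≤ K) (hop : OpSmall k0 σ)
    (hσ : 0 ≤ σ) {a b : (X → V) → ℝ} {N : ℕ} (E : Finset (X × X)) (hN : E.card ≤ N)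
    (h1 : ∀ e ∈ E, e.1 ≠ e.2) (h2 : ∀ e ∈ E, e.swap ∉ E)
    (hab : ∀ e ∈ E, (Ind e.2 a ∧ Ind e.1 b) ∨ (Ind e.1 a ∧ Ind e.2 b)) :
    |𝔼 y, a y * b y * (PE k0 E y - 1)| ≤ N * σ * K ^ N * (nm a * nm b) := by
  have hab0 : 0 ≤ nm a * nm b := mul_nonneg (nm_nonneg _) (nm_nonneg _)
  suffices h : |𝔼 y, a y * b y * (PE k0 E y - 1)| ≤ E.card * σ * K ^ N * (nm a * nm b) by
    refine h.trans ?_
    have : (E.card : ℝ) ≤ N := by exact_mod_cast hN
    have hK0 : 0 ≤ K ^ N := by positivity
    gcongr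
  induction E using Finset.induction_on with
  | empty => simp [PE]
  | insert e E he ih =>
    obtain ⟨c, d⟩ := e
    have hc : (insert (c, d) E).card = E.card + 1 := card_insert_of_notMem he
    have ih' := ih (by omega) (fun e h => h1 e (mem_insert_of_mem h))
      (fun e h h' => h2 e (mem_insert_of_mem h) (mem_insert_of_mem h'))
      fun e h => hab e (mem_insert_of_mem h)
    have hcd : c ≠ d := h1 _ (mem_insert_self _ _)
    have h3 : (d, c) ∉ E := fun h => h2 _ (mem_insert_self _ _) (mem_insert_of_mem h)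
    have h4 : |𝔼 y, a y * b y * ((k0 (y d - y c) - 1) * PE k0 E y)| ≤
        σ * K ^ E.card * (nm a * nm b) := by
      rcases hab _ (mem_insert_self _ _) with h | h
      · exact edge_step h0 hK hop hσ hcd (fun e h => h1 e (mem_insert_of_mem h)) he h3 h.1 h.2
      · have := edge_step h0 hK hop hσ hcd (fun e h => h1 e (mem_insert_of_mem h)) he h3 h.2 h.1
        simpa only [mul_comm (a _) (b _), mul_comm (nm a)] using this
    have h5 : 𝔼 y, a y * b y * (PE k0 (insert (c, d) E) y - 1) =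
        (𝔼 y, a y * b y * ((k0 (y d - y c) - 1) * PE k0 E y)) +
          𝔼 y, a y * b y * (PE k0 E y - 1) := by
      rw [← expect_add_distrib]
      refine expect_congr rfl fun y _ => ?_
      have : PE k0 (insert (c, d) E) y = k0 (y d - y c) * PE k0 E y := prod_insert he
      rw [this]; ring
    have h6 : K ^ E.card ≤ K ^ N := pow_le_pow_right₀ hK1 (by omega)
    have h7 : σ * K ^ E.card * (nm a * nm b) ≤ σ * K ^ N * (nm a * nm b) := by gcongr
    rw [h5, hc]
    refine (abs_add_le _ _).trans ?_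
    push_cast
    linarith

end edge

end Crest.Agent.N41.Local
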