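import Crest.Agent.N41.Local.MaxCorr

/-!
# Row 41, module A: the local law
-/

set_option autoImplicit false
open Finset
open scoped BigOperators

namespace Crest.Agent.N41.Local

section weights
variable {D : ℕ} {ε l : ℝ}

/-- the weight of a tuple of hexagon maps -/
noncomputable def WW (ε l : ℝ) (Φ : Fin D → H → H) : ℝ := ∏ i, wt ε l (Φ i)

lemma WW_nonneg (hε : 0 ≤ ε) (hl : 1 ≤ l) (Φ : Fin D → H → H) : 0 ≤ WW ε l Φ :=
  prod_nonneg fun _ _ => wt_nonneg hε hl _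

lemma WW_id : WW ε l (fun (_ : Fin D) => (id : H → H)) = 1 := by simp [WW, wt_id]

lemma sum_dir_nonneg (hε : 0 ≤ ε) (hl : 1 ≤ l) (i : Fin D) (M : (Fin D → H → H) → ℝ)
    (h : ∀ Φ, 0 ≤ ∑ ψ, wt ε l ψ * M (Function.update Φ i ψ)) : 0 ≤ ∑ Φ, WW ε l Φ * M Φ := by
  have h1 : 0 ≤ 𝔼 Φ, WW ε l Φ * M Φ := by
    rw [expect_update i]
    refine expect_nonneg fun Φ _ => ?_
    rw [Fintype.expect_eq_sum_div_card]
    refine div_nonneg ?_ (Nat.cast_nonneg _)
    have h2 : ∀ ψ, WW ε l (Function.update Φ i ψ) =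
        (∏ m ∈ univ.erase i, wt ε l (Φ m)) * wt ε l ψ := fun ψ => by
      unfold WW
      rw [← mul_prod_erase univ _ (mem_univ i), Function.update_self, mul_comm]
      congr 1
      exact prod_congr rfl fun m hm => by rw [Function.update_of_ne (ne_of_mem_erase hm)]
    simp only [h2, mul_assoc, ← mul_sum]
    exact mul_nonneg (prod_nonneg fun _ _ => wt_nonneg hε hl _) (h Φ)
  rw [Fintype.expect_eq_sum_div_card] at h1
  have hc : (0 : ℝ) < Fintype.card (Fin D → H → H) := by exact_mod_cast Fintype.card_pos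
  exact (div_nonneg_iff.1 h1).elim (fun h => h.1) fun h => absurd h.2 (not_le.2 hc)

lemma sum_dir_eq (hε : 0 ≤ ε) (hl : 1 ≤ l) (i : Fin D) (M M' : (Fin D → H → H) → ℝ)
    (h : ∀ Φ, ∑ ψ, wt ε l ψ * M (Function.update Φ i ψ) =
      ∑ ψ, wt ε l ψ * M' (Function.update Φ i ψ)) :
    ∑ Φ, WW ε l Φ * M Φ = ∑ Φ, WW ε l Φ * M' Φ := by
  have h1 := sum_dir_nonneg hε hl i (fun Φ => M Φ - M' Φ) fun Φ => by
    simp only [mul_sub, sum_sub_distrib, h Φ, sub_self, le_refl]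
  have h2 := sum_dir_nonneg hε hl i (fun Φ => M' Φ - M Φ) fun Φ => by
    simp only [mul_sub, sum_sub_distrib, h Φ, sub_self, le_refl]
  simp only [mul_sub, sum_sub_distrib] at h1 h2
  linarith

lemma sum_WW : ∑ Φ : Fin D → H → H, WW ε l Φ = (1 + ∑ ψ, wa ε l ψ) ^ D := by
  unfold WW
  rw [← Fintype.prod_sum fun (_ : Fin D) ψ => wt ε l ψ, prod_const, card_univ, Fintype.card_fin]
  congr 1
  simpa using sum_wt_mul (ε := ε) (l := l) fun _ => 1

lemma sum_WW_fail :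
    ∑ Φ ∈ univ.filter fun Φ : Fin D → H → H => ¬ ∃ i, Φ i = id, WW ε l Φ =
      (∑ ψ, wa ε l ψ) ^ D := by
  have h1 : (∑ ψ, wa ε l ψ) ^ D = ∑ Φ : Fin D → H → H, ∏ i, wa ε l (Φ i) := by
    rw [← Fintype.prod_sum fun (_ : Fin D) ψ => wa ε l ψ, prod_const, card_univ, Fintype.card_fin]
  rw [h1, sum_filter]
  refine sum_congr rfl fun Φ _ => ?_
  split_ifs with h
  · obtain ⟨i, hi⟩ := h
    exact (prod_eq_zero (mem_univ i) (by rw [hi, wa_id])).symm
  · exact prod_congr rfl fun i _ => wt_of_ne fun hi => h ⟨i, hi⟩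

lemma one_add_pow_sub_one_le {s : ℝ} (h0 : 0 ≤ s) (h1 : s ≤ 1) (D : ℕ) :
    (1 + s) ^ D - 1 ≤ (2 ^ D - 1) * s := by
  induction D with
  | zero => simp
  | succ D ih =>
    have h2 : (1 : ℝ) ≤ 2 ^ D := one_le_pow₀ (by norm_num)
    have h3 : (1 + s) ^ D ≤ 2 ^ D := pow_le_pow_left₀ (by linarith) (by linarith) D
    rw [pow_succ, pow_succ]
    nlinarith

end weights

section mix
variable {D : ℕ} {V : Type} [Fintype V] [AddCommGroup V] {k0 : V → ℝ} {K σ ε l : ℝ}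

/-- the mixture of the measures `mu` over a set of tuples -/
noncomputable def mix (k0 : V → ℝ) (ε l : ℝ) (S : Finset (Fin D → H → H))
    (F : (Om D → V) → ℝ) : ℝ := ∑ Φ ∈ S, WW ε l Φ * mu k0 (act Φ) F

open Classical in
/-- the mass function of the mixture -/
noncomputable def wgt (k0 : V → ℝ) (ε l : ℝ) (S : Finset (Fin D → H → H)) (x : Om D → V) : ℝ :=
  mix k0 ε l S fun z => if z = x then 1 else 0

lemma sum_wgt (S : Finset (Fin D → H → H)) (F : (Om D → V) → ℝ) :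
    ∑ x, wgt k0 ε l S x * F x = mix k0 ε l S F := by
  classical
  unfold wgt mix mu
  simp only [sum_mul]
  rw [sum_comm]
  refine sum_congr rfl fun Φ _ => ?_
  simp only [mul_assoc, ← mul_sum, expect_mul]
  rw [← expect_sum_comm]
  congr 1
  refine expect_congr rfl fun y _ => ?_
  simp [mul_comm]

lemma mix_nonneg (h0 : ∀ t, 0 ≤ k0 t) (hε : 0 ≤ ε) (hl : 1 ≤ l) (S : Finset (Fin D → H → H))
    {F : (Om D → V) → ℝ} (hF : ∀ x, 0 ≤ F x) : 0 ≤ mix k0 ε l S F :=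
  sum_nonneg fun Φ _ => mul_nonneg (WW_nonneg hε hl Φ) (mu_nonneg h0 _ hF)

lemma wgt_nonneg (h0 : ∀ t, 0 ≤ k0 t) (hε : 0 ≤ ε) (hl : 1 ≤ l) (S : Finset (Fin D → H → H))
    (x : Om D → V) : 0 ≤ wgt k0 ε l S x :=
  mix_nonneg h0 hε hl S fun z => by split_ifs <;> norm_num

lemma wgt_shift (S : Finset (Fin D → H → H)) (x : Om D → V) (t : V) :
    wgt k0 ε l S (fun c => x c + t) = wgt k0 ε l S x := by
  classical
  unfold wgt mix
  refine sum_congr rfl fun Φ _ => ?_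
  rw [← mu_shift _ _ t]
  congr 2
  funext z
  congr 1
  exact propext ⟨fun h => funext fun c => add_right_cancel (congrFun h c), fun h => by rw [h]⟩

lemma wgt_mir (hε : 0 ≤ ε) (hl : 1 ≤ l) (i : Fin D) (j : H) (x : Om D → V) :
    wgt k0 ε l univ (x ∘ dir i (mir j)) = wgt k0 ε l univ x := by
  classical
  unfold wgt mix
  refine sum_dir_eq hε hl i _ _ fun Φ => ?_
  rw [← sum_mu_mir ε l Φ i j]
  refine sum_congr rfl fun ψ _ => ?_
  congr 2
  funext z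
  congr 1
  refine propext ⟨fun h => funext fun c => ?_, fun h => by rw [h]⟩
  simpa [dir_mir_mir] using congrFun h (dir i (mir j) c)

lemma mix_one_le (h0 : ∀ t, 0 ≤ k0 t) (hK : ∀ t, k0 t ≤ K) (hK1 : 1 ≤ K) (hε : 0 ≤ ε)
    (hl : 1 ≤ l) (S : Finset (Fin D → H → H)) (w : Om D) (g : V → ℝ) (hg : ∀ s, 0 ≤ g s) :
    mix k0 ε l S (fun x => g (x w)) ≤ (∑ Φ ∈ S, WW ε l Φ) * (K ^ (Gam D).card * 𝔼 s, g s) := by
  rw [sum_mul]
  refine sum_le_sum fun Φ _ => mul_le_mul_of_nonneg_left ?_ (WW_nonneg hε hl Φ)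
  rw [← expect_coord (act Φ w) g, mul_expect]
  refine expect_le_expect fun y _ => ?_
  rw [mul_comm]
  exact mul_le_mul_of_nonneg_right (PE_edgesOf_le h0 hK hK1 _ y) (hg _)

lemma mix_pair_le (h0 : ∀ t, 0 ≤ k0 t) (hK : ∀ t, k0 t ≤ K) (hK1 : 1 ≤ K) (hε : 0 ≤ ε)
    (hl : 1 ≤ l) (F : V → V → ℝ) (hF : ∀ s t, 0 ≤ F s t) :
    mix k0 ε l (univ.filter fun Φ : Fin D → H → H => ∃ i, Φ i = id)
      (fun x => F (x (ptA D)) (x (ptB D))) ≤
      (∑ Φ : Fin D → H → H, WW ε l Φ) * (K ^ (Gam D).card * 𝔼 s, 𝔼 t, k0 (t - s) * F s t) := by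
  have hE : 0 ≤ K ^ (Gam D).card * 𝔼 s, 𝔼 t, k0 (t - s) * F s t :=
    mul_nonneg (by positivity) (expect_nonneg fun s _ => expect_nonneg fun t _ =>
      mul_nonneg (h0 _) (hF s t))
  refine le_trans ?_ (mul_le_mul_of_nonneg_right (sum_le_sum_of_subset_of_nonneg
    (filter_subset (fun Φ : Fin D → H → H => ∃ i, Φ i = id) univ)
    fun Φ _ _ => WW_nonneg hε hl Φ) hE)
  rw [sum_mul]
  refine sum_le_sum fun Φ hΦ => ?_
  by_cases hW : WW ε l Φ = 0
  · simp [hW]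
  refine mul_le_mul_of_nonneg_left ?_ (WW_nonneg hε hl Φ)
  obtain ⟨i, hi⟩ := (mem_filter.1 hΦ).2
  have hG : (act Φ (ptA D), act Φ (ptB D)) ∈ Gam D := by
    refine mem_Gam.2 ⟨fun m => ?_, i, ?_⟩
    · exact rel_of_wt_ne (prod_ne_zero_iff.1 hW m (mem_univ m)) _ _ Rel_zero_two
    · simp only [act, hi]; exact rho_zero_two
  have hsub : {(act Φ (ptA D), act Φ (ptB D))} ⊆ edgesOf (act Φ) :=
    singleton_subset_iff.2 (mem_edgesOf.2 ⟨hG, ⟨_, rfl⟩, _, rfl⟩)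
  rw [← expect_two_coord (Gam_ne hG) fun s t => k0 (t - s) * F s t, mul_expect]
  refine expect_le_expect fun y _ => ?_
  have h1 := PE_le_of_subset h0 hK hK1 hsub (card_le_card (edgesOf_subset _)) y
  have h2 := mul_le_mul_of_nonneg_left h1 (hF (y (act Φ (ptA D))) (y (act Φ (ptB D))))
  refine h2.trans (le_of_eq ?_)
  simp only [PE, prod_singleton]
  ring

lemma mix_univ_eq (F : (Om D → V) → ℝ) : mix k0 ε l univ F =
    (𝔼 y, F y * PE k0 (Gam D) y) + mix k0 ε l (univ.erase fun _ => id) F := by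
  unfold mix
  rw [← add_sum_erase univ _ (mem_univ fun _ => id), WW_id, one_mul, act_id, mu, edgesOf_id]
  rfl

lemma mix_maxcorr (h0 : ∀ t, 0 ≤ k0 t) (hK : ∀ t, k0 t ≤ K) (hK1 : 1 ≤ K) (hop : OpSmall k0 σ)
    (hσ : 0 ≤ σ) (hε : 0 ≤ ε) (hl : 1 ≤ l) {R : ℝ}
    (hR1 : 6 * (K ^ (Gam D).card) ^ 2 * ((Gam D).card * σ * K ^ (Gam D).card) ^ 2 ≤ R)
    (hR2 : ((∑ Φ : Fin D → H → H, WW ε l Φ) - 1) * K ^ (Gam D).card ≤ R)
    (w : Om D) (g : V → ℝ) (G : (Om D → V) → ℝ) (hg : ∑ s, g s = 0) (hG : Ind w G) :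
    mix k0 ε l univ (fun x => g (x w) * G x) ^ 2 ≤
      2 * R * (𝔼 s, g s ^ 2) * mix k0 ε l univ fun x => G x ^ 2 := by
  rw [mix_univ_eq, mix_univ_eq]
  have h1 := maxcorr_PE h0 hK hK1 hop hσ (Gam D) (fun e he => Gam_ne he) (fun e he => Gam_swap he)
    w g G hg hG
  set S : Finset (Fin D → H → H) := univ.erase fun _ => id
  have h2 : mix k0 ε l S (fun x => g (x w) * G x) ^ 2 ≤
      mix k0 ε l S (fun x => g (x w) ^ 2) * mix k0 ε l S fun x => G x ^ 2 := by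
    rw [← sum_wgt, ← sum_wgt, ← sum_wgt]
    exact sum_sq_le_sum_mul_sum_of_sq_le_mul univ
      (fun x _ => mul_nonneg (wgt_nonneg h0 hε hl S x) (sq_nonneg _))
      (fun x _ => mul_nonneg (wgt_nonneg h0 hε hl S x) (sq_nonneg _)) fun x _ => le_of_eq (by ring)
  have h3 := mix_one_le h0 hK hK1 hε hl S w (fun s => g s ^ 2) fun s => sq_nonneg _
  have h4 : ∑ Φ ∈ S, WW ε l Φ = (∑ Φ : Fin D → H → H, WW ε l Φ) - 1 := by
    rw [← add_sum_erase univ _ (mem_univ fun _ => id), WW_id]; ring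
  have hγ := expect_sq_nonneg g
  have hA : 0 ≤ 𝔼 y, G y ^ 2 * PE k0 (Gam D) y :=
    expect_nonneg fun y _ => mul_nonneg (sq_nonneg _) (PE_nonneg h0 _ _)
  have hB : 0 ≤ mix k0 ε l S fun x => G x ^ 2 := mix_nonneg h0 hε hl S fun x => sq_nonneg _
  rw [h4, ← mul_assoc] at h3
  have h5 := h1.trans (mul_le_mul_of_nonneg_right (mul_le_mul_of_nonneg_right hR1 hγ) hA)
  have h6 := h2.trans (mul_le_mul_of_nonneg_right
    (h3.trans (mul_le_mul_of_nonneg_right hR2 hγ)) hB)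
  nlinarith [sq_nonneg ((𝔼 y, g (y w) * G y * PE k0 (Gam D) y) -
    mix k0 ε l S fun x => g (x w) * G x)]

lemma half_le_mix (h0 : ∀ t, 0 ≤ k0 t) (hK : ∀ t, k0 t ≤ K) (hK1 : 1 ≤ K) (hop : OpSmall k0 σ)
    (hσ : 0 ≤ σ) (hε : 0 ≤ ε) (hl : 1 ≤ l)
    (hη : (Gam D).card * σ * K ^ (Gam D).card ≤ 1 / 2) :
    1 / 2 ≤ mix k0 ε l (univ : Finset (Fin D → H → H)) fun _ => 1 := by
  rw [mix_univ_eq]
  have h1 := edges_le h0 hK hK1 hop hσ (a := fun _ => 1) (b := fun _ => 1) (Gam D) le_rfl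
    (fun e he => Gam_ne he) (fun e he => Gam_swap he)
    fun e _ => Or.inl ⟨fun _ _ => rfl, fun _ _ => rfl⟩
  have h2 : nm (fun _ : Om D → V => (1 : ℝ)) = 1 := by simp [nm]
  simp only [h2, mul_one, one_mul, expect_sub_distrib, Fintype.expect_const] at h1 ⊢
  have h3 := mix_nonneg h0 hε hl (univ.erase fun (_ : Fin D) => id) (F := fun _ => 1)
    fun _ => zero_le_one
  linarith [(abs_le.1 h1).1]

end mix

/-- **Module A**: the local law. -/
theorem localLaw : LocalLawStmt := by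
  intro D K₀
  set K := max K₀ 1
  have hK1 : 1 ≤ K := le_max_right _ _
  set N := (Gam D).card
  set M := K ^ N with hM
  have hM1 : 1 ≤ M := one_le_pow₀ hK1
  set l := 6 ^ 6 * M with hl
  have hl1 : 1 ≤ l := by rw [hl]; nlinarith
  set c0 := N * M with hc0
  set c1 := 6 ^ 6 * (6 ^ 6 * (c0 * M) * l ^ 60) with hc1
  have hc00 : 0 ≤ c0 := by positivity
  have hc10 : 0 ≤ c1 := by positivity
  set R := 6 * M ^ 2 * c0 ^ 2 + 2 ^ D * c1 * M with hR
  have hR0 : 0 ≤ R := by positivity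
  have hCa : 0 ≤ 2 * (2 ^ D * M) := by positivity
  have hCb : 0 ≤ 2 * (c1 ^ D * M) := by positivity
  refine ⟨1 + 2 * (2 ^ D * M) + 2 * (c1 ^ D * M) + 4 * R, 1 / (1 + 2 * c0 + c1), by linarith,
    by positivity, ?_⟩
  intro V _ _ k0 σ h0 hK₀ hop hσ hσ0
  set C := 1 + 2 * (2 ^ D * M) + 2 * (c1 ^ D * M) + 4 * R with hC
  have hK : ∀ t, k0 t ≤ K := fun t => (hK₀ t).trans (le_max_left _ _)
  rw [le_div_iff₀ (by positivity)] at hσ0
  have hσ1 : σ ≤ 1 := by nlinarith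
  have hσ2 : c0 * σ ≤ 1 / 2 := by nlinarith
  have hσ3 : c1 * σ ≤ 1 := by nlinarith
  set ε := 6 ^ 6 * (N * σ * M * M) with hε
  have hε0 : 0 ≤ ε := by positivity
  set s := ∑ ψ, wa ε l ψ with hs
  have hs0 : 0 ≤ s := sum_nonneg fun ψ _ => wa_nonneg hε0 hl1 ψ
  have hs1 : s ≤ c1 * σ := (sum_wa_le hε0 hl1).trans (le_of_eq (by rw [hε, hc1, hc0]; ring))
  have hW : ∑ Φ : Fin D → H → H, WW ε l Φ ≤ 2 ^ D := by
    rw [sum_WW]; exact pow_le_pow_left₀ (by linarith) (by linarith) D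
  set Z := mix k0 ε l (univ : Finset (Fin D → H → H)) fun _ => 1 with hZ
  have hZ1 : 1 / 2 ≤ Z := half_le_mix h0 hK hK1 hop hσ hε0 hl1 (by
    refine le_trans (le_of_eq ?_) hσ2
    rw [hc0]; ring)
  have hZ0 : 0 < Z := by linarith
  set S1 : Finset (Fin D → H → H) := univ.filter fun Φ => ∃ i, Φ i = id
  set S2 : Finset (Fin D → H → H) := univ.filter fun Φ => ¬ ∃ i, Φ i = id
  have hadd : ∀ x, wgt k0 ε l S1 x / Z + wgt k0 ε l S2 x / Z = wgt k0 ε l univ x / Z := by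
    intro x
    rw [← add_div]
    congr 1
    exact sum_filter_add_sum_filter_not _ _ _
  have hint : ∀ (S : Finset (Fin D → H → H)) (F : (Om D → V) → ℝ),
      ∑ x, wgt k0 ε l S x / Z * F x = mix k0 ε l S F / Z := fun S F => by
    rw [← sum_wgt, sum_div]
    exact sum_congr rfl fun x _ => by ring
  have hdiv : ∀ {a b : ℝ}, 0 ≤ b → a ≤ b → a / Z ≤ 2 * b := fun {a b} hb hab => by
    rw [div_le_iff₀ hZ0]; nlinarith
  refine ⟨⟨fun x => wgt k0 ε l S1 x / Z, fun x => wgt k0 ε l S2 x / Z,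
    fun x => div_nonneg (wgt_nonneg h0 hε0 hl1 _ x) hZ0.le,
    fun x => div_nonneg (wgt_nonneg h0 hε0 hl1 _ x) hZ0.le, ?_, ?_,
    fun x t => by rw [wgt_shift], fun x t => by rw [wgt_shift], ?_, ?_, ?_⟩⟩
  · have := hint univ fun _ => 1
    simp only [mul_one] at this
    simp only [hadd, this]
    exact div_self hZ0.ne'
  · intro i j
    simp only [hadd]
    refine ⟨fun x => by rw [wgt_mir hε0 hl1], fun F => ?_⟩
    rw [hint]
    exact div_nonneg (sum_dir_nonneg hε0 hl1 i _ fun Φ =>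
      sum_BB_nonneg h0 hK hK1 hop hσ hl hε Φ i j F) hZ0.le
  · have h1 := hint S2 fun _ => 1
    simp only [mul_one] at h1
    have h2 := mix_one_le h0 hK hK1 hε0 hl1 S2 (ptA D) (fun _ => 1) fun _ => zero_le_one
    rw [sum_WW_fail, Fintype.expect_const, mul_one] at h2
    have h3 : s ^ D * M ≤ c1 ^ D * M * σ ^ D := by
      have := pow_le_pow_left₀ hs0 hs1 D
      rw [mul_pow] at this
      nlinarith
    rw [h1]
    refine (hdiv (by positivity) (h2.trans h3)).trans ?_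
    have : 0 ≤ σ ^ D := by positivity
    nlinarith
  · intro F hF
    rw [hint]
    have hE : 0 ≤ 𝔼 s, 𝔼 t, k0 (t - s) * F s t :=
      expect_nonneg fun s _ => expect_nonneg fun t _ => mul_nonneg (h0 _) (hF s t)
    have h1 := (mix_pair_le h0 hK hK1 hε0 hl1 F hF).trans
      (mul_le_mul_of_nonneg_right hW (mul_nonneg (zero_le_one.trans hM1) hE))
    refine (hdiv (by positivity) h1).trans ?_
    nlinarith
  · intro w g G hg hG
    simp only [hadd, hint]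
    have hs2 := one_add_pow_sub_one_le hs0 (hs1.trans hσ3) D
    have h1 := mix_maxcorr (R := R * σ) h0 hK hK1 hop hσ hε0 hl1 (by
      have e : (N * σ * M) ^ 2 = c0 ^ 2 * σ * σ := by rw [hc0]; ring
      have h2 : 0 ≤ 6 * M ^ 2 * (c0 ^ 2 * σ) := by positivity
      have h3 : 0 ≤ 2 ^ D * c1 * M * σ := by positivity
      change 6 * M ^ 2 * (N * σ * M) ^ 2 ≤ _
      rw [e, hR]
      nlinarith) (by
      rw [sum_WW]
      have h2 : 0 ≤ 6 * M ^ 2 * c0 ^ 2 * σ := by positivity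
      have h3 : (1 + s) ^ D - 1 ≤ 2 ^ D * (c1 * σ) := by
        have : (0 : ℝ) ≤ 2 ^ D := by positivity
        nlinarith
      change ((1 + s) ^ D - 1) * M ≤ _
      rw [hR]
      nlinarith) w g G hg hG
    have hγ := expect_sq_nonneg g
    have hB : 0 ≤ mix k0 ε l univ fun x => G x ^ 2 :=
      mix_nonneg h0 hε0 hl1 _ fun x => sq_nonneg _
    rw [mul_pow, Real.sq_sqrt hσ, div_pow, sq Z, ← div_div, ← mul_div_assoc]
    refine div_le_div_of_nonneg_right ((hdiv (by positivity) h1).trans ?_) hZ0.le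
    have hC1 : 1 ≤ C := by linarith
    have hC2 : 4 * R ≤ C ^ 2 := by nlinarith
    have h4 : 0 ≤ σ * (𝔼 s, g s ^ 2) * mix k0 ε l univ fun x => G x ^ 2 := by positivity
    nlinarith

end Crest.Agent.N41.Local
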