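import Crest.Agent.N41.Local.Mu

/-!
# Row 41, module A: maximal correlation for the main term `mu id`
-/

set_option autoImplicit false
open Finset
open scoped BigOperators

namespace Crest.Agent.N41.Local

lemma expect_sq_le_of_sq_le_mul {Y : Type} [Fintype Y] {r f g : Y → ℝ} (hf : ∀ y, 0 ≤ f y)
    (hg : ∀ y, 0 ≤ g y) (h : ∀ y, r y ^ 2 ≤ f y * g y) :
    (𝔼 y, r y) ^ 2 ≤ (𝔼 y, f y) * 𝔼 y, g y := by
  simp only [Fintype.expect_eq_sum_div_card]
  rw [div_pow, div_mul_div_comm, ← sq]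
  exact div_le_div_of_nonneg_right
    (sum_sq_le_sum_mul_sum_of_sq_le_mul univ (fun y _ => hf y) (fun y _ => hg y) fun y _ => h y)
    (sq_nonneg _)

section
variable {X V : Type} [Fintype X] [DecidableEq X] [Fintype V] [AddCommGroup V]
  {k0 : V → ℝ} {K σ : ℝ}

/-- the conditional expectation operator of a star of edges is close to the mean -/
lemma star_le (h0 : ∀ t, 0 ≤ k0 t) (hK : ∀ t, k0 t ≤ K) (hK1 : 1 ≤ K) (hop : OpSmall k0 σ)
    (hσ : 0 ≤ σ) {N : ℕ} (E : Finset (X × X)) (hN : E.card ≤ N)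
    (h1 : ∀ e ∈ E, e.1 ≠ e.2) (h2 : ∀ e ∈ E, e.swap ∉ E) (w : X)
    (hw : ∀ e ∈ E, e.1 = w ∨ e.2 = w) (g : V → ℝ) :
    𝔼 y : X → V, (𝔼 s, g s * (PE k0 E (Function.update y w s) - 1)) ^ 2 ≤
      (N * σ * K ^ N) ^ 2 * 𝔼 s, g s ^ 2 := by
  set hh : (X → V) → ℝ := fun y => 𝔼 s, g s * (PE k0 E (Function.update y w s) - 1) with hhh
  have hind : Ind w hh := fun y s => by simp [hhh]
  have hg : ∀ d, d ≠ w → Ind d fun y : X → V => g (y w) := fun d hd y s => by
    simp only [Function.update_of_ne hd.symm]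
  have h3 := edges_le h0 hK hK1 hop hσ (a := fun y => g (y w)) (b := hh) E hN h1 h2 fun e he => by
    rcases hw e he with h | h
    · exact Or.inl ⟨hg _ fun h' => h1 e he (h.trans h'.symm), h ▸ hind⟩
    · exact Or.inr ⟨hg _ fun h' => h1 e he (h'.trans h.symm), h ▸ hind⟩
  have h4 : 𝔼 y : X → V, g (y w) * hh y * (PE k0 E y - 1) = nm hh ^ 2 := by
    rw [nm_sq, expect_update w]
    refine expect_congr rfl fun y _ => ?_
    have e : hh y ^ 2 = hh y * 𝔼 s, g s * (PE k0 E (Function.update y w s) - 1) := sq _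
    rw [e, mul_expect]
    simp only [Function.update_self, hind y]
    exact expect_congr rfl fun s _ => by ring
  have h5 : nm (fun y : X → V => g (y w)) = nm g := by
    unfold nm; rw [expect_coord w fun s => g s ^ 2]
  rw [h4, h5, abs_of_nonneg (sq_nonneg _)] at h3
  have hη : 0 ≤ N * σ * K ^ N * nm g := mul_nonneg (by positivity) (nm_nonneg _)
  have h6 : nm hh ≤ N * σ * K ^ N * nm g := by
    rcases (nm_nonneg hh).eq_or_lt with h | h
    · rw [← h]; exact hη
    · refine le_of_mul_le_mul_right ?_ h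
      nlinarith
  change 𝔼 y, hh y ^ 2 ≤ _
  rw [← nm_sq, ← nm_sq, ← mul_pow]
  exact pow_le_pow_left₀ (nm_nonneg _) h6 2

/-- maximal correlation of one site with the others under a product of edge kernels -/
lemma maxcorr_PE (h0 : ∀ t, 0 ≤ k0 t) (hK : ∀ t, k0 t ≤ K) (hK1 : 1 ≤ K) (hop : OpSmall k0 σ)
    (hσ : 0 ≤ σ) (E : Finset (X × X)) (h1 : ∀ e ∈ E, e.1 ≠ e.2) (h2 : ∀ e ∈ E, e.swap ∉ E)
    (w : X) (g : V → ℝ) (G : (X → V) → ℝ) (hg : ∑ s, g s = 0) (hG : Ind w G) :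
    (𝔼 y : X → V, g (y w) * G y * PE k0 E y) ^ 2 ≤
      6 * (K ^ E.card) ^ 2 * (E.card * σ * K ^ E.card) ^ 2 * (𝔼 s, g s ^ 2) *
        𝔼 y : X → V, G y ^ 2 * PE k0 E y := by
  set Ew := E.filter fun e => ¬ (e.1 ≠ w ∧ e.2 ≠ w)
  set Er := E.filter fun e => e.1 ≠ w ∧ e.2 ≠ w
  have hsplit : ∀ y, PE k0 E y = PE k0 Er y * PE k0 Ew y := fun y =>
    (prod_filter_mul_prod_filter_not E _ _).symm
  have hir : Ind w (PE k0 Er) := PE_ind fun e he => (mem_filter.1 he).2
  have hsw : Ew ⊆ E := filter_subset _ _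
  have hstar := star_le h0 hK hK1 hop hσ Ew (card_le_card hsw) (fun e he => h1 e (hsw he))
    (fun e he h => h2 e (hsw he) (hsw h)) w fun e he => by
      have := (mem_filter.1 he).2
      tauto
  set M := K ^ E.card with hM
  set η := E.card * σ * M
  have hM1 : 1 ≤ M := one_le_pow₀ hK1
  have hPw : ∀ y, PE k0 Ew y ≤ M := fun y =>
    (PE_le h0 hK _ y).trans (pow_le_pow_right₀ hK1 (card_le_card hsw))
  have hPr : ∀ y, PE k0 Er y ≤ M := fun y =>
    (PE_le h0 hK _ y).trans (pow_le_pow_right₀ hK1 (card_le_card (filter_subset _ _)))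
  set h : (X → V) → ℝ := fun y => 𝔼 s, g s * PE k0 Ew (Function.update y w s) with hh
  set n : (X → V) → ℝ := fun y => 𝔼 s, PE k0 Ew (Function.update y w s) with hn
  set γ := 𝔼 s, g s ^ 2 with hγ
  have hγ0 : 0 ≤ γ := expect_sq_nonneg g
  have hmean : 𝔼 s, g s = 0 := by rw [Fintype.expect_eq_sum_div_card, hg, zero_div]
  have hh2 : 𝔼 y, h y ^ 2 ≤ η ^ 2 * γ := by
    refine le_trans (le_of_eq (expect_congr rfl fun y _ => ?_)) (hstar g)
    simp only [hh, mul_sub, expect_sub_distrib, mul_one, hmean, sub_zero]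
  have hn2 : 𝔼 y, (n y - 1) ^ 2 ≤ η ^ 2 := by
    have := hstar fun _ => 1
    simp only [one_mul, one_pow, Fintype.expect_const, mul_one, expect_sub_distrib] at this
    exact this
  have hn0 : ∀ y, 0 ≤ n y := fun y => expect_nonneg fun s _ => PE_nonneg h0 _ _
  have hcs : ∀ y, h y ^ 2 ≤ n y * (M * γ) := fun y => by
    have h3 := expect_sq_le_of_sq_le_mul (r := fun s => g s * PE k0 Ew (Function.update y w s))
      (f := fun s => PE k0 Ew (Function.update y w s))
      (g := fun s => g s ^ 2 * PE k0 Ew (Function.update y w s)) (fun s => PE_nonneg h0 _ _)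
      (fun s => mul_nonneg (sq_nonneg _) (PE_nonneg h0 _ _)) fun s => le_of_eq (by ring)
    refine h3.trans (mul_le_mul_of_nonneg_left ?_ (hn0 y))
    rw [hγ, mul_expect]
    exact expect_le_expect fun s _ => by
      rw [mul_comm M]; exact mul_le_mul_of_nonneg_left (hPw _) (sq_nonneg _)
  set q : (X → V) → ℝ := fun y => 2 * h y ^ 2 + 4 * (n y - 1) ^ 2 * (M * γ) with hq
  have hMγ : 0 ≤ M * γ := by positivity
  have hq0 : ∀ y, 0 ≤ q y := fun y => by simp only [hq]; positivity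
  have hnq : ∀ y, h y ^ 2 ≤ n y * q y := fun y => by
    simp only [hq]
    by_cases hy : 1 / 2 ≤ n y
    · have : 0 ≤ n y * (4 * (n y - 1) ^ 2 * (M * γ)) := mul_nonneg (hn0 y) (by positivity)
      nlinarith [sq_nonneg (h y)]
    · have h4 : 1 ≤ 4 * (n y - 1) ^ 2 := by nlinarith
      have h5 : M * γ ≤ 2 * h y ^ 2 + 4 * (n y - 1) ^ 2 * (M * γ) := by nlinarith [sq_nonneg (h y)]
      exact (hcs y).trans (mul_le_mul_of_nonneg_left h5 (hn0 y))
  have e1 : 𝔼 y : X → V, g (y w) * G y * PE k0 E y = 𝔼 y, G y * PE k0 Er y * h y := by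
    rw [expect_update w]
    refine expect_congr rfl fun y _ => ?_
    simp only [hh, mul_expect, Function.update_self, hG y, hsplit, hir y]
    exact expect_congr rfl fun s _ => by ring
  have e2 : 𝔼 y : X → V, G y ^ 2 * PE k0 E y = 𝔼 y, G y ^ 2 * PE k0 Er y * n y := by
    rw [expect_update w]
    refine expect_congr rfl fun y _ => ?_
    simp only [hn, mul_expect, hG y, hsplit, hir y]
    exact expect_congr rfl fun s _ => by ring
  have h6 := expect_sq_le_of_sq_le_mul (r := fun y => G y * PE k0 Er y * h y)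
    (f := fun y => G y ^ 2 * PE k0 Er y * n y) (g := fun y => PE k0 Er y * q y)
    (fun y => mul_nonneg (mul_nonneg (sq_nonneg _) (PE_nonneg h0 _ _)) (hn0 y))
    (fun y => mul_nonneg (PE_nonneg h0 _ _) (hq0 y)) fun y => by
      have := mul_le_mul_of_nonneg_left (hnq y) (sq_nonneg (G y * PE k0 Er y))
      nlinarith
  have h7 : 𝔼 y, PE k0 Er y * q y ≤ 6 * M ^ 2 * η ^ 2 * γ := by
    calc 𝔼 y, PE k0 Er y * q y ≤ 𝔼 y, M * q y :=
          expect_le_expect fun y _ => mul_le_mul_of_nonneg_right (hPr y) (hq0 y)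
      _ = M * (2 * (𝔼 y, h y ^ 2) + 4 * (𝔼 y, (n y - 1) ^ 2) * (M * γ)) := by
          simp only [hq, ← mul_expect, expect_add_distrib, ← expect_mul]
      _ ≤ M * (2 * (η ^ 2 * γ) + 4 * η ^ 2 * (M * γ)) := by gcongr
      _ ≤ 6 * M ^ 2 * η ^ 2 * γ := by
          have : 0 ≤ η ^ 2 * γ := by positivity
          nlinarith [mul_le_mul_of_nonneg_right hM1 (mul_nonneg (zero_le_one.trans hM1) this)]
  rw [e1, e2]
  refine h6.trans ?_
  rw [mul_comm]
  exact mul_le_mul_of_nonneg_right h7 (expect_nonneg fun y _ =>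
    mul_nonneg (mul_nonneg (sq_nonneg _) (PE_nonneg h0 _ _)) (hn0 y))

end

end Crest.Agent.N41.Local
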