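import Crest.Agent.N41.Local.Weights
import Crest.Agent.N41.Local.Edge

/-!
# Row 41, module A: the graph `Gam`, the measures `mu π`, and reflection positivity of the mixture
-/

set_option autoImplicit false
open Finset
open scoped BigOperators

namespace Crest.Agent.N41.Local

section graph
variable {D : ℕ}

/-- a tuple of hexagon maps acting on the torus -/
def act (Φ : Fin D → H → H) (c : Om D) : Om D := fun i => Φ i (c i)

/-- the forced pairs -/
def Gam (D : ℕ) : Finset (Om D × Om D) :=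
  univ.filter fun e => (∀ i, Rel (e.1 i) (e.2 i)) ∧ ∃ i, rho (e.1 i) (e.2 i)

lemma mem_Gam {e : Om D × Om D} :
    e ∈ Gam D ↔ (∀ i, Rel (e.1 i) (e.2 i)) ∧ ∃ i, rho (e.1 i) (e.2 i) := by simp [Gam]

lemma Gam_ne {e : Om D × Om D} (he : e ∈ Gam D) : e.1 ≠ e.2 := by
  obtain ⟨-, i, hi⟩ := mem_Gam.1 he
  exact fun h => rho_ne _ _ hi (congrFun h i)

lemma Gam_swap {e : Om D × Om D} (he : e ∈ Gam D) : e.swap ∉ Gam D := by
  obtain ⟨-, i, hi⟩ := mem_Gam.1 he
  exact fun h => not_Rel_of_rho _ _ hi ((mem_Gam.1 h).1 i)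

lemma Gam_mir (i : Fin D) (j : H) {e : Om D × Om D} (he : e ∈ Gam D) :
    (dir i (mir j) e.1, dir i (mir j) e.2) ∈ Gam D := by
  obtain ⟨h1, l, hl⟩ := mem_Gam.1 he
  refine mem_Gam.2 ⟨fun l => ?_, l, ?_⟩
  · by_cases h : l = i
    · subst h; simpa [Rel_mir] using h1 l
    · simpa [dir_apply_ne h] using h1 l
  · by_cases h : l = i
    · subst h; simpa [rho_mir] using hl
    · simpa [dir_apply_ne h] using hl

/-- the forced pairs inside the image of `π` -/
def edgesOf (π : Om D → Om D) : Finset (Om D × Om D) :=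
  (Gam D).filter fun e => e.1 ∈ univ.image π ∧ e.2 ∈ univ.image π

lemma mem_edgesOf {π : Om D → Om D} {e : Om D × Om D} :
    e ∈ edgesOf π ↔ e ∈ Gam D ∧ (∃ c, π c = e.1) ∧ ∃ c, π c = e.2 := by simp [edgesOf]

lemma edgesOf_subset (π : Om D → Om D) : edgesOf π ⊆ Gam D := filter_subset _ _

lemma edgesOf_comp_subset (π τ : Om D → Om D) : edgesOf (π ∘ τ) ⊆ edgesOf π := by
  intro e he
  obtain ⟨h1, ⟨c, hc⟩, c', hc'⟩ := mem_edgesOf.1 he
  exact mem_edgesOf.2 ⟨h1, ⟨_, hc⟩, _, hc'⟩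

lemma edgesOf_comp_mir (π : Om D → Om D) (i : Fin D) (j : H) :
    edgesOf (π ∘ dir i (mir j)) = edgesOf π := by
  refine (edgesOf_comp_subset _ _).antisymm ?_
  have : π = (π ∘ dir i (mir j)) ∘ dir i (mir j) := by funext c; simp [dir_mir_mir]
  conv_lhs => rw [this]
  exact edgesOf_comp_subset _ _

lemma edgesOf_id : edgesOf (id : Om D → Om D) = Gam D := by
  ext e; simp [mem_edgesOf]

lemma act_update_comp (Φ : Fin D → H → H) (i : Fin D) (ψ φ : H → H) :
    act (Function.update Φ i ψ) ∘ dir i φ = act (Function.update Φ i (ψ ∘ φ)) := by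
  funext c l
  by_cases h : l = i
  · subst h; simp [act]
  · simp [act, h, dir_apply_ne h]

lemma dir_comp_act_update (Φ : Fin D → H → H) (i : Fin D) (ψ φ : H → H) :
    dir i φ ∘ act (Function.update Φ i ψ) = act (Function.update Φ i (φ ∘ ψ)) := by
  funext c l
  by_cases h : l = i
  · subst h; simp [act]
  · simp [act, h, dir_apply_ne h]

lemma act_update_same (Φ : Fin D → H → H) (i : Fin D) (ψ : H → H) (c : Om D) :
    act (Function.update Φ i ψ) c i = ψ (c i) := by simp [act]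

lemma act_id : act (fun (_ : Fin D) => (id : H → H)) = id := rfl

end graph

section mu
variable {D : ℕ} {V : Type} [Fintype V] [AddCommGroup V] {k0 : V → ℝ} {K σ : ℝ}

/-- the measure attached to a self-map of the torus -/
noncomputable def mu (k0 : V → ℝ) (π : Om D → Om D) (F : (Om D → V) → ℝ) : ℝ :=
  𝔼 y : Om D → V, F (y ∘ π) * PE k0 (edgesOf π) y

lemma mu_nonneg (h0 : ∀ t, 0 ≤ k0 t) (π : Om D → Om D) {F : (Om D → V) → ℝ}
    (hF : ∀ x, 0 ≤ F x) : 0 ≤ mu k0 π F :=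
  expect_nonneg fun y _ => mul_nonneg (hF _) (PE_nonneg h0 _ y)

omit [AddCommGroup V] in
lemma expect_comp_mir (i : Fin D) (j : H) (Φ : (Om D → V) → ℝ) :
    𝔼 y : Om D → V, Φ (y ∘ dir i (mir j)) = 𝔼 y, Φ y := by
  rw [Fintype.expect_eq_sum_div_card, Fintype.expect_eq_sum_div_card, sum_comp_mir]

omit [Fintype V] in
lemma PE_comp_mir (π : Om D → Om D) (i : Fin D) (j : H) (y : Om D → V) :
    PE k0 (edgesOf π) (y ∘ dir i (mir j)) = PE k0 (edgesOf (dir i (mir j) ∘ π)) y := by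
  unfold PE
  refine prod_nbij' (fun e => (dir i (mir j) e.1, dir i (mir j) e.2))
    (fun e => (dir i (mir j) e.1, dir i (mir j) e.2)) ?_ ?_ ?_ ?_ ?_
  · intro e he
    obtain ⟨h1, ⟨c, hc⟩, c', hc'⟩ := mem_edgesOf.1 he
    exact mem_edgesOf.2 ⟨Gam_mir i j h1, ⟨c, by simp [hc]⟩, c', by simp [hc']⟩
  · intro e he
    obtain ⟨h1, ⟨c, hc⟩, c', hc'⟩ := mem_edgesOf.1 he
    exact mem_edgesOf.2 ⟨Gam_mir i j h1, ⟨c, by simp [← hc, dir_mir_mir]⟩, c',
      by simp [← hc', dir_mir_mir]⟩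
  · intro e _; simp [dir_mir_mir]
  · intro e _; simp [dir_mir_mir]
  · intro e _; rfl

lemma mu_mir_comp (π : Om D → Om D) (i : Fin D) (j : H) (F : (Om D → V) → ℝ) :
    mu k0 (dir i (mir j) ∘ π) F = mu k0 π F := by
  unfold mu
  rw [← expect_comp_mir i j fun y => F (y ∘ π) * PE k0 (edgesOf π) y]
  exact expect_congr rfl fun y _ => by rw [PE_comp_mir]; rfl

lemma mu_comp_mir (π : Om D → Om D) (i : Fin D) (j : H) (F : (Om D → V) → ℝ) :
    mu k0 π (fun x => F (x ∘ dir i (mir j))) = mu k0 (π ∘ dir i (mir j)) F := by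
  unfold mu
  rw [edgesOf_comp_mir]
  rfl

lemma mu_shift (π : Om D → Om D) (F : (Om D → V) → ℝ) (t : V) :
    mu k0 π (fun x => F fun c => x c + t) = mu k0 π F := by
  unfold mu
  refine Fintype.expect_equiv (Equiv.addRight fun _ => t) _ _ fun y => ?_
  congr 1
  exact prod_congr rfl fun e _ => by simp

omit [Fintype V] in
lemma loc_congr (π : Om D → Om D) (F : (Om D → V) → ℝ) {y y' : Om D → V}
    (h : ∀ c, y (π c) = y' (π c)) :
    F (y ∘ π) * PE k0 (edgesOf π) y = F (y' ∘ π) * PE k0 (edgesOf π) y' := by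
  congr 1
  · congr 1; funext c; exact h c
  · refine prod_congr rfl fun e he => ?_
    obtain ⟨-, ⟨c, hc⟩, c', hc'⟩ := mem_edgesOf.1 he
    rw [← hc, ← hc', h, h]

omit [Fintype V] in
lemma loc_ind (π : Om D → Om D) (F : (Om D → V) → ℝ) {d : Om D} (hd : ∀ c, π c ≠ d) :
    Ind d fun y => F (y ∘ π) * PE k0 (edgesOf π) y := fun _ _ =>
  loc_congr π F fun c => Function.update_of_ne (hd c) _ _

omit [Fintype V] in
lemma PE_edgesOf_le (h0 : ∀ t, 0 ≤ k0 t) (hK : ∀ t, k0 t ≤ K) (hK1 : 1 ≤ K) (π : Om D → Om D)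
    (y : Om D → V) : PE k0 (edgesOf π) y ≤ K ^ (Gam D).card :=
  (PE_le h0 hK _ y).trans (pow_le_pow_right₀ hK1 (card_le_card (edgesOf_subset π)))

/-- the diagonal terms -/
noncomputable def NN (k0 : V → ℝ) (Φ : Fin D → H → H) (i : Fin D) (F : (Om D → V) → ℝ)
    (ψ : H → H) : ℝ := mu k0 (act (Function.update Φ i ψ)) fun x => F x ^ 2

/-- the terms of the bilinear form -/
noncomputable def BB (k0 : V → ℝ) (Φ : Fin D → H → H) (i : Fin D) (j : H) (F : (Om D → V) → ℝ)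
    (ψ : H → H) : ℝ := mu k0 (act (Function.update Φ i ψ))
      fun x => F (x ∘ dir i (fold j)) * F (x ∘ dir i (fold (j + 3)))

lemma BB_eq (Φ : Fin D → H → H) (i : Fin D) (j : H) (F : (Om D → V) → ℝ) (ψ : H → H) :
    BB k0 Φ i j F ψ = 𝔼 y : Om D → V, F (y ∘ act (Function.update Φ i (ψ ∘ fold j))) *
      F (y ∘ act (Function.update Φ i (ψ ∘ fold (j + 3)))) *
        PE k0 (edgesOf (act (Function.update Φ i ψ))) y := by
  unfold BB mu
  simp only [← act_update_comp]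
  rfl

lemma NN_nonneg (h0 : ∀ t, 0 ≤ k0 t) (Φ : Fin D → H → H) (i : Fin D) (F : (Om D → V) → ℝ)
    (ψ : H → H) : 0 ≤ NN k0 Φ i F ψ := mu_nonneg h0 _ fun _ => sq_nonneg _

lemma BB_folded (Φ : Fin D → H → H) (i : Fin D) (j : H) (F : (Om D → V) → ℝ) {ψ : H → H}
    (h : ψ ∘ mir j = ψ) : BB k0 Φ i j F ψ = NN k0 Φ i F ψ := by
  rw [BB_eq, comp_fold_of_folded h, comp_fold3_of_folded h]
  exact expect_congr rfl fun y _ => by rw [← sq]

/-- non-folded non-injective maps are dominated by their two folds -/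
lemma BB_allowed (h0 : ∀ t, 0 ≤ k0 t) (hK : ∀ t, k0 t ≤ K) (hK1 : 1 ≤ K) {ε l : ℝ} (hε : 0 ≤ ε)
    (hl : 1 ≤ l) (Φ : Fin D → H → H) (i : Fin D) (j : H) (F : (Om D → V) → ℝ) {ψ : H → H}
    (hψ : Allowed ψ) (h : ψ ∘ mir j ≠ ψ) :
    -(2 * l * (wt ε l ψ * BB k0 Φ i j F ψ)) ≤ K ^ (Gam D).card *
      (wt ε l (ψ ∘ fold j) * NN k0 Φ i F (ψ ∘ fold j) +
        wt ε l (ψ ∘ fold (j + 3)) * NN k0 Φ i F (ψ ∘ fold (j + 3))) := by
  rw [BB_eq, wt_of_allowed hψ, wt_of_allowed (allowed_comp_fold j hψ.2),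
    wt_of_allowed (allowed_comp_fold (j + 3) hψ.2)]
  unfold NN mu
  simp only [mul_expect, ← expect_add_distrib, ← expect_neg_distrib]
  refine expect_le_expect fun y _ => ?_
  set u := F (y ∘ act (Function.update Φ i (ψ ∘ fold j)))
  set v := F (y ∘ act (Function.update Φ i (ψ ∘ fold (j + 3))))
  have hP := PE_nonneg h0 (edgesOf (act (Function.update Φ i ψ))) y
  have hc := card_le_card (edgesOf_subset (act (Function.update Φ i ψ)))
  have hP1 := PE_le_of_subset h0 hK hK1 (edgesOf_comp_subset (act (Function.update Φ i ψ))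
    (dir i (fold j))) hc y
  have hP2 := PE_le_of_subset h0 hK hK1 (edgesOf_comp_subset (act (Function.update Φ i ψ))
    (dir i (fold (j + 3)))) hc y
  rw [act_update_comp] at hP1 hP2
  set P := PE k0 (edgesOf (act (Function.update Φ i ψ))) y
  set P1 := PE k0 (edgesOf (act (Function.update Φ i (ψ ∘ fold j)))) y
  set P2 := PE k0 (edgesOf (act (Function.update Φ i (ψ ∘ fold (j + 3))))) y
  set p := En (ψ ∘ fold j)
  set q := En (ψ ∘ fold (j + 3))
  have hE : l * l ^ (2 * En ψ) ≤ l ^ p * l ^ q := by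
    rw [← pow_succ', ← pow_add]
    exact pow_le_pow_right₀ hl (En_fold j ψ h)
  have hl0 : 0 ≤ l * l ^ (2 * En ψ) := by positivity
  have h1 : -(2 * (l * l ^ (2 * En ψ)) * (u * v)) ≤ l ^ (2 * p) * u ^ 2 + l ^ (2 * q) * v ^ 2 := by
    have h2 : -(u * v) ≤ |u| * |v| := by rw [← abs_mul]; exact neg_le_abs _
    have h3 : 0 ≤ |u| * |v| := by positivity
    have h4 : 2 * (l ^ p * |u|) * (l ^ q * |v|) ≤ (l ^ p * |u|) ^ 2 + (l ^ q * |v|) ^ 2 :=
      two_mul_le_add_sq _ _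
    rw [mul_pow, mul_pow, sq_abs, sq_abs, ← pow_mul, ← pow_mul, mul_comm p 2, mul_comm q 2] at h4
    nlinarith [mul_le_mul_of_nonneg_left h2 hl0, mul_le_mul_of_nonneg_right hE h3]
  have h5 : 0 ≤ l ^ (2 * p) * u ^ 2 := by positivity
  have h6 : 0 ≤ l ^ (2 * q) * v ^ 2 := by positivity
  have h7 := mul_le_mul_of_nonneg_right h1 hP
  have h8 := mul_le_mul_of_nonneg_left hP1 h5
  have h9 := mul_le_mul_of_nonneg_left hP2 h6
  have h10 : -(2 * (l * l ^ (2 * En ψ)) * (u * v)) * P ≤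
      K ^ (Gam D).card * (l ^ (2 * p) * u ^ 2 * P1 + l ^ (2 * q) * v ^ 2 * P2) := by nlinarith
  nlinarith [mul_le_mul_of_nonneg_left h10 hε]

/-- the identity map is dominated by its fold -/
lemma BB_id (h0 : ∀ t, 0 ≤ k0 t) (hK : ∀ t, k0 t ≤ K) (hK1 : 1 ≤ K) (hop : OpSmall k0 σ)
    (hσ : 0 ≤ σ) (Φ : Fin D → H → H) (i : Fin D) (j : H) (F : (Om D → V) → ℝ) :
    -BB k0 Φ i j F id ≤ ((Gam D).card * σ * K ^ (Gam D).card * K ^ (Gam D).card) *
      NN k0 Φ i F (fold j) := by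
  rw [BB_eq]
  simp only [Function.id_comp]
  set π := act (Function.update Φ i id) with hπ
  set π1 := act (Function.update Φ i (fold j)) with hπ1
  set π2 := act (Function.update Φ i (fold (j + 3))) with hπ2
  have e1 : π1 = π ∘ dir i (fold j) := by rw [hπ, act_update_comp]; rfl
  have e2 : π2 = π ∘ dir i (fold (j + 3)) := by rw [hπ, act_update_comp]; rfl
  have e3 : dir i (mir j) ∘ π1 = π2 := by
    rw [hπ1, dir_comp_act_update]; congr 2; funext t; exact mir_fold j t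
  have hp : ∀ c, π c i = c i := fun c => act_update_same Φ i id c
  have hp1 : ∀ c, inP j (π1 c i) := fun c => by rw [hπ1, act_update_same]; exact inP_fold _ _
  have hp2 : ∀ c, ¬ inP j (π2 c i) := fun c => by
    rw [hπ2, act_update_same]; exact not_inP_fold3 _ _
  set a : (Om D → V) → ℝ := fun y => F (y ∘ π1) * PE k0 (edgesOf π1) y with ha
  set b : (Om D → V) → ℝ := fun y => F (y ∘ π2) * PE k0 (edgesOf π2) y with hb
  have hab : ∀ y, a (y ∘ dir i (mir j)) = b y := fun y => by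
    simp only [ha, hb]; rw [PE_comp_mir, e3, Function.comp_assoc, e3]
  have hdisj : Disjoint (edgesOf π1) (edgesOf π2) := by
    refine disjoint_left.2 fun e h1 h2 => ?_
    obtain ⟨-, ⟨c, hc⟩, -⟩ := mem_edgesOf.1 h1
    obtain ⟨-, ⟨c', hc'⟩, -⟩ := mem_edgesOf.1 h2
    exact hp2 c' (hc' ▸ hc ▸ hp1 c)
  have hsub : edgesOf π1 ∪ edgesOf π2 ⊆ edgesOf π :=
    union_subset (e1 ▸ edgesOf_comp_subset _ _) (e2 ▸ edgesOf_comp_subset _ _)
  set Ex := edgesOf π \ (edgesOf π1 ∪ edgesOf π2)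
  have hP : ∀ y, PE k0 (edgesOf π) y =
      PE k0 Ex y * (PE k0 (edgesOf π1) y * PE k0 (edgesOf π2) y) := fun y => by
    unfold PE; rw [← prod_union hdisj, prod_sdiff hsub]
  have hr1 : ∀ c, inP j (π c i) → ∃ c', π1 c' = π c := fun c h =>
    ⟨c, by rw [e1, Function.comp_apply, dir_eq_self i (fold_of_inP _ _ (hp c ▸ h))]⟩
  have hr2 : ∀ c, ¬ inP j (π c i) → ∃ c', π2 c' = π c := fun c h => by
    refine ⟨c, ?_⟩
    rw [e2, Function.comp_apply, dir_eq_self i]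
    rw [hp c, ← mir_mir j (c i), inP_mir, not_not] at h
    rw [← fold3_mir, fold3_of_inP _ _ h, mir_mir]
  have hia : ∀ d : Om D, ¬ inP j (d i) → Ind d a := fun d hd =>
    loc_ind π1 F fun c h => hd (h ▸ hp1 c)
  have hib : ∀ d : Om D, inP j (d i) → Ind d b := fun d hd =>
    loc_ind π2 F fun c h => hp2 c (h ▸ hd)
  have hEx : Ex ⊆ Gam D := sdiff_subset.trans (edgesOf_subset π)
  have h1 := edges_le h0 hK hK1 hop hσ (a := a) (b := b) Ex (card_le_card hEx)
    (fun e he => Gam_ne (hEx he)) (fun e he h => Gam_swap (hEx he) (hEx h)) fun e he => by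
      obtain ⟨he1, he2⟩ := mem_sdiff.1 he
      obtain ⟨hG, ⟨c, hc⟩, c', hc'⟩ := mem_edgesOf.1 he1
      by_cases h1 : inP j (e.1 i) <;> by_cases h2 : inP j (e.2 i)
      · exact absurd (mem_union_left _ (mem_edgesOf.2
          ⟨hG, hc ▸ hr1 c (hc ▸ h1), hc' ▸ hr1 c' (hc' ▸ h2)⟩)) he2
      · exact Or.inl ⟨hia _ h2, hib _ h1⟩
      · exact Or.inr ⟨hia _ h1, hib _ h2⟩
      · exact absurd (mem_union_right _ (mem_edgesOf.2
          ⟨hG, hc ▸ hr2 c (hc ▸ h1), hc' ▸ hr2 c' (hc' ▸ h2)⟩)) he2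
  have h2 : 𝔼 y, a y * b y = (𝔼 y, a y) * 𝔼 y, b y := by
    refine expect_indep (half i j) a b (fun y z => loc_congr π1 F fun c => ?_)
      fun y z => loc_congr π2 F fun c => ?_
    · exact piecewise_eq_of_mem _ _ _ (mem_half.2 (hp1 c))
    · exact piecewise_eq_of_notMem _ _ _ fun h => hp2 c (mem_half.1 h)
  have h3 : 𝔼 y, b y = 𝔼 y, a y := by
    rw [← expect_comp_mir i j a]; simp only [hab]
  have h4 : nm b = nm a := by
    unfold nm; rw [← expect_comp_mir i j fun y => a y ^ 2]; simp only [hab]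
  have h5 : nm a * nm a ≤ K ^ (Gam D).card * NN k0 Φ i F (fold j) := by
    rw [← sq, nm_sq]
    unfold NN mu
    rw [mul_expect]
    refine expect_le_expect fun y _ => ?_
    have h6 := PE_nonneg h0 (edgesOf π1) y
    have h7 := PE_edgesOf_le h0 hK hK1 π1 y
    have h8 := mul_le_mul_of_nonneg_left h7 (mul_nonneg (sq_nonneg (F (y ∘ π1))) h6)
    simp only [ha]
    nlinarith
  have h6 : 𝔼 y : Om D → V, F (y ∘ π1) * F (y ∘ π2) * PE k0 (edgesOf π) y =
      (𝔼 y, a y * b y) + 𝔼 y, a y * b y * (PE k0 Ex y - 1) := by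
    rw [← expect_add_distrib]
    exact expect_congr rfl fun y _ => by rw [hP]; simp only [ha, hb]; ring
  rw [h6, h2, h3]
  rw [h4] at h1
  have h7 : 0 ≤ (Gam D).card * σ * K ^ (Gam D).card := by positivity
  nlinarith [neg_abs_le (𝔼 y, a y * b y * (PE k0 Ex y - 1)), mul_self_nonneg (𝔼 y, a y),
    mul_le_mul_of_nonneg_left h5 h7]

/-- reflection positivity along one direction, the other directions being frozen -/
lemma sum_BB_nonneg (h0 : ∀ t, 0 ≤ k0 t) (hK : ∀ t, k0 t ≤ K) (hK1 : 1 ≤ K) (hop : OpSmall k0 σ)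
    (hσ : 0 ≤ σ) {ε l : ℝ} (hl : l = 6 ^ 6 * K ^ (Gam D).card)
    (hε : ε = 6 ^ 6 * ((Gam D).card * σ * K ^ (Gam D).card * K ^ (Gam D).card))
    (Φ : Fin D → H → H) (i : Fin D) (j : H) (F : (Om D → V) → ℝ) :
    0 ≤ ∑ ψ, wt ε l ψ * BB k0 Φ i j F ψ := by
  classical
  have hKG : 1 ≤ K ^ (Gam D).card := one_le_pow₀ hK1
  have hl1 : 1 ≤ l := by rw [hl]; nlinarith
  have hε0 : 0 ≤ ε := by rw [hε]; positivity
  set T := ∑ ψ ∈ univ.filter fun ψ : H → H => ψ ∘ mir j = ψ, wt ε l ψ * NN k0 Φ i F ψ with hT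
  have hnn : ∀ ψ, 0 ≤ wt ε l ψ * NN k0 Φ i F ψ := fun ψ =>
    mul_nonneg (wt_nonneg hε0 hl1 ψ) (NN_nonneg h0 Φ i F ψ)
  have hT0 : 0 ≤ T := sum_nonneg fun ψ _ => hnn ψ
  have hle : ∀ ψ : H → H, ψ ∘ mir j = ψ → wt ε l ψ * NN k0 Φ i F ψ ≤ T := fun ψ h =>
    single_le_sum (f := fun ψ => wt ε l ψ * NN k0 Φ i F ψ) (fun ψ _ => hnn ψ)
      (mem_filter.2 ⟨mem_univ _, h⟩)
  have hterm : ∀ ψ : H → H, ψ ∘ mir j ≠ ψ → -(T / 6 ^ 6) ≤ wt ε l ψ * BB k0 Φ i j F ψ := by
    intro ψ h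
    by_cases h1 : ψ = id
    · subst h1
      have h2 := BB_id h0 hK hK1 hop hσ Φ i j F
      have h3 := hle (fold j) (comp_fold_mir j id)
      have h4 : ε ≤ wt ε l (fold j) := by
        rw [wt_of_allowed (ψ := fold j) (allowed_comp_fold j (ψ := id) fun _ _ h => h)]
        exact le_mul_of_one_le_right hε0 (one_le_pow₀ hl1)
      have h5 := mul_le_mul_of_nonneg_right h4 (NN_nonneg h0 Φ i F (fold j))
      have h6 := h5.trans h3
      rw [wt_id, one_mul]
      rw [hε] at h6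
      linarith
    · by_cases h2 : Allowed ψ
      · have h3 := BB_allowed h0 hK hK1 hε0 hl1 Φ i j F h2 h
        have h4 := hle _ (comp_fold_mir j ψ)
        have h5 := hle _ (comp_fold3_mir j ψ)
        have h6 : -(2 * l * (wt ε l ψ * BB k0 Φ i j F ψ)) ≤ K ^ (Gam D).card * (T + T) :=
          h3.trans (mul_le_mul_of_nonneg_left (add_le_add h4 h5) (by linarith))
        set X := wt ε l ψ * BB k0 Φ i j F ψ
        rw [hl] at h6
        have h7 : K ^ (Gam D).card * (-(6 ^ 6 * X)) ≤ K ^ (Gam D).card * T := by linarith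
        have h8 := le_of_mul_le_mul_left h7 (by linarith)
        linarith
      · rw [wt_of_ne h1]
        simp only [wa, h2, if_false, zero_mul, neg_nonpos]
        positivity
  rw [← sum_filter_add_sum_filter_not univ fun ψ : H → H => ψ ∘ mir j = ψ]
  have h1 : ∑ ψ ∈ univ.filter fun ψ : H → H => ψ ∘ mir j = ψ, wt ε l ψ * BB k0 Φ i j F ψ = T :=
    sum_congr rfl fun ψ hψ => by rw [BB_folded Φ i j F (mem_filter.1 hψ).2]
  have h2 := card_nsmul_le_sum (univ.filter fun ψ : H → H => ¬ ψ ∘ mir j = ψ)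
    (fun ψ => wt ε l ψ * BB k0 Φ i j F ψ) _ fun ψ hψ => hterm ψ (mem_filter.1 hψ).2
  have h3 : ((univ.filter fun ψ : H → H => ¬ ψ ∘ mir j = ψ).card : ℝ) ≤ 6 ^ 6 := by
    have := card_le_univ (univ.filter fun ψ : H → H => ¬ ψ ∘ mir j = ψ)
    rw [Fintype.card_fun, Fintype.card_fin] at this
    exact_mod_cast this
  rw [nsmul_eq_mul] at h2
  rw [h1]
  have h4 := mul_le_mul_of_nonneg_right h3 (div_nonneg hT0 (by norm_num : (0 : ℝ) ≤ 6 ^ 6))
  linarith

/-- mirror invariance along one direction -/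
lemma sum_mu_mir (ε l : ℝ) (Φ : Fin D → H → H) (i : Fin D) (j : H) (F : (Om D → V) → ℝ) :
    ∑ ψ, wt ε l ψ * mu k0 (act (Function.update Φ i ψ)) (fun x => F (x ∘ dir i (mir j))) =
      ∑ ψ, wt ε l ψ * mu k0 (act (Function.update Φ i ψ)) F := by
  simp only [mu_comp_mir, act_update_comp]
  rw [sum_wt_mul, sum_wt_mul]
  congr 1
  · rw [← mu_mir_comp _ i j F, dir_comp_act_update]
    congr 3
    funext t; simp [mir_mir]
  · have hinv : Function.Involutive fun ψ : H → H => ψ ∘ mir j := comp_mir_mir j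
    refine Fintype.sum_equiv hinv.toPerm _ _ fun ψ => ?_
    simp [wa_comp_mir]

end mu

end Crest.Agent.N41.Local
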