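import Crest.Agent.N41.Local.Chess

/-!
# Row 41, module A: the relation `Rel`, the potential `En` and the weights of hexagon maps
-/

set_option autoImplicit false
open Finset
open scoped BigOperators

namespace Crest.Agent.N41.Local

/-- the chiral relation: `a ↦ a+2` for even `a`, `a ↦ a-2` for odd `a` -/
def rho (a b : H) : Prop := (a.val % 2 = 0 ∧ b = a + 2) ∨ (a.val % 2 = 1 ∧ b = a + 4)

instance (a b : H) : Decidable (rho a b) := by unfold rho; infer_instance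

/-- equal, adjacent, or chirally related -/
def Rel (a b : H) : Prop := a = b ∨ b = a + 1 ∨ a = b + 1 ∨ rho a b

instance (a b : H) : Decidable (Rel a b) := by unfold Rel; infer_instance

lemma Rel_fold : ∀ j a b : H, Rel a b → Rel (fold j a) (fold j b) := by decide
lemma Rel_mir : ∀ j a b : H, Rel (mir j a) (mir j b) ↔ Rel a b := by decide
lemma rho_mir : ∀ j a b : H, rho (mir j a) (mir j b) ↔ rho a b := by decide
lemma not_Rel_of_rho : ∀ a b : H, rho a b → ¬ Rel b a := by decide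
lemma rho_ne : ∀ a b : H, rho a b → a ≠ b := by decide
lemma rho_zero_two : rho 0 2 := by decide
lemma Rel_zero_two : Rel 0 2 := by decide
lemma mir_ne : ∀ j a : H, mir j a ≠ a := by decide
lemma fold_eq_or : ∀ j a : H, fold j a = a ∨ fold j a = mir j a := by decide

/-- the potential of a map of the hexagon -/
def En (ψ : H → H) : ℕ :=
  ∑ a, (4 * (if ψ a = ψ (a + 1) then 1 else 0) + if ψ a = ψ (a + 3) then 1 else 0)

lemma En_le (ψ : H → H) : En ψ ≤ 30 := by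
  unfold En
  calc _ ≤ ∑ _a : H, 5 := sum_le_sum fun a _ => by split_ifs <;> omega
    _ = 30 := by simp

/-- the potential in terms of an abstract indicator -/
def e6 (I : H → H → ℕ) (a b c d e f : H) : ℕ :=
  4 * (I a b + I b c + I c d + I d e + I e f + I f a) +
    (I a d + I b e + I c f + I d a + I e b + I f c)

/-- the equality indicator -/
def eqI (a b : H) : ℕ := if a = b then 1 else 0

lemma En_eq (ψ : H → H) : En ψ = e6 eqI (ψ 0) (ψ 1) (ψ 2) (ψ 3) (ψ 4) (ψ 5) := by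
  unfold En e6 eqI
  rw [Fin.sum_univ_six]
  simp only [show (0 : H) + 1 = 1 from rfl, show (1 : H) + 1 = 2 from rfl,
    show (2 : H) + 1 = 3 from rfl, show (3 : H) + 1 = 4 from rfl, show (4 : H) + 1 = 5 from rfl,
    show (5 : H) + 1 = 0 from rfl, show (0 : H) + 3 = 3 from rfl, show (1 : H) + 3 = 4 from rfl,
    show (2 : H) + 3 = 5 from rfl, show (3 : H) + 3 = 0 from rfl, show (4 : H) + 3 = 1 from rfl,
    show (5 : H) + 3 = 2 from rfl]
  ring

lemma eqI_comm (a b : H) : eqI a b = eqI b a := by unfold eqI; simp only [eq_comm]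
lemma eqI_self (a : H) : eqI a a = 1 := by simp [eqI]
lemma eqI_le (a b : H) : eqI a b ≤ 1 := by unfold eqI; split_ifs <;> omega
lemma eqI_trans (a b c : H) : eqI a b + eqI b c ≤ 1 + eqI a c := by
  unfold eqI; split_ifs <;> simp_all
lemma eqI_of_ne {a b : H} (h : a ≠ b) : eqI a b = 0 := by simp [eqI, h]

lemma e6_rot (a b c d e f : H) : e6 eqI a b c d e f = e6 eqI b c d e f a := by
  unfold e6; ring

lemma e6_rev (a b c d e f : H) : e6 eqI a b c d e f = e6 eqI f e d c b a := by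
  unfold e6
  rw [eqI_comm f e, eqI_comm e d, eqI_comm d c, eqI_comm c b, eqI_comm b a, eqI_comm a f]
  ring

lemma e6_key (a b c d e f : H) (h : ¬ (a = f ∧ b = e ∧ c = d)) :
    2 * e6 eqI a b c d e f + 1 ≤ e6 eqI f e d d e f + e6 eqI a b c c b a := by
  unfold e6
  simp only [eqI_self]
  rw [eqI_comm f e, eqI_comm e d, eqI_comm f d, eqI_comm c b, eqI_comm b a, eqI_comm c a,
    eqI_comm f a, eqI_comm d a, eqI_comm e b, eqI_comm f c]
  have h1 := eqI_trans a f d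
  have h2 := eqI_trans a d f
  have h3 := eqI_trans a d c
  have h4 := eqI_trans a c d
  have h5 := eqI_trans d a f
  have h6 := eqI_trans c f a
  have h7 := eqI_trans d c f
  have h8 := eqI_le a f
  have h9 := eqI_le b e
  have h10 := eqI_le c d
  rw [eqI_comm f d] at h1
  rw [eqI_comm d c] at h3 h7
  rw [eqI_comm d a] at h5
  rw [eqI_comm f a, eqI_comm c a] at h6
  by_cases haf : a = f
  · by_cases hbe : b = e
    · have hcd : c ≠ d := fun hcd => h ⟨haf, hbe, hcd⟩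
      have := eqI_of_ne hcd
      omega
    · have := eqI_of_ne hbe
      omega
  · have := eqI_of_ne haf
    omega

lemma En_mir (j : H) (ψ : H → H) : En (ψ ∘ mir j) = En ψ := by
  rw [En_eq, En_eq]
  fin_cases j
  · change e6 eqI (ψ 1) (ψ 0) (ψ 5) (ψ 4) (ψ 3) (ψ 2) = _
    rw [e6_rev, e6_rot (ψ 0), e6_rot (ψ 1)]
  · change e6 eqI (ψ 3) (ψ 2) (ψ 1) (ψ 0) (ψ 5) (ψ 4) = _
    rw [e6_rev, e6_rot (ψ 4), e6_rot (ψ 5)]
  · change e6 eqI (ψ 5) (ψ 4) (ψ 3) (ψ 2) (ψ 1) (ψ 0) = _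
    rw [e6_rev]
  · change e6 eqI (ψ 1) (ψ 0) (ψ 5) (ψ 4) (ψ 3) (ψ 2) = _
    rw [e6_rev, e6_rot (ψ 0), e6_rot (ψ 1)]
  · change e6 eqI (ψ 3) (ψ 2) (ψ 1) (ψ 0) (ψ 5) (ψ 4) = _
    rw [e6_rev, e6_rot (ψ 4), e6_rot (ψ 5)]
  · change e6 eqI (ψ 5) (ψ 4) (ψ 3) (ψ 2) (ψ 1) (ψ 0) = _
    rw [e6_rev]

lemma comp_mir_of_three (j : H) (ψ : H → H) (h1 : ψ (j + 4) = ψ (j + 3))
    (h2 : ψ (j + 5) = ψ (j + 2)) (h3 : ψ j = ψ (j + 1)) : ψ ∘ mir j = ψ := by
  have key : ∀ j a : H, (a = j + 4 ∧ mir j a = j + 3) ∨ (a = j + 3 ∧ mir j a = j + 4) ∨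
      (a = j + 5 ∧ mir j a = j + 2) ∨ (a = j + 2 ∧ mir j a = j + 5) ∨
      (a = j ∧ mir j a = j + 1) ∨ (a = j + 1 ∧ mir j a = j) := by decide
  funext a
  rcases key j a with h | h | h | h | h | h <;>
    simp only [Function.comp_apply, h.2] <;> rw [h.1] <;> simp only [h1, h2, h3]

lemma En_shift (ψ : H → H) (j : H) : En ψ =
    e6 eqI (ψ (j + 4)) (ψ (j + 5)) (ψ j) (ψ (j + 1)) (ψ (j + 2)) (ψ (j + 3)) := by
  rw [En_eq]
  fin_cases j
  · change _ = e6 eqI (ψ 4) (ψ 5) (ψ 0) (ψ 1) (ψ 2) (ψ 3)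
    rw [e6_rot (ψ 4), e6_rot (ψ 5)]
  · change _ = e6 eqI (ψ 5) (ψ 0) (ψ 1) (ψ 2) (ψ 3) (ψ 4)
    rw [e6_rot (ψ 5)]
  · rfl
  · change _ = e6 eqI (ψ 1) (ψ 2) (ψ 3) (ψ 4) (ψ 5) (ψ 0)
    rw [e6_rot (ψ 0)]
  · change _ = e6 eqI (ψ 2) (ψ 3) (ψ 4) (ψ 5) (ψ 0) (ψ 1)
    rw [e6_rot (ψ 0), e6_rot (ψ 1)]
  · change _ = e6 eqI (ψ 3) (ψ 4) (ψ 5) (ψ 0) (ψ 1) (ψ 2)
    rw [e6_rot (ψ 0), e6_rot (ψ 1), e6_rot (ψ 2)]

/-- strict convexity of the potential under the two folds of a mirror -/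
lemma En_fold (j : H) (ψ : H → H) (h : ψ ∘ mir j ≠ ψ) :
    2 * En ψ + 1 ≤ En (ψ ∘ fold j) + En (ψ ∘ fold (j + 3)) := by
  have f1 : ∀ j : H, fold j (j + 4) = j + 3 ∧ fold j (j + 5) = j + 2 ∧ fold j j = j + 1 ∧
      fold j (j + 1) = j + 1 ∧ fold j (j + 2) = j + 2 ∧ fold j (j + 3) = j + 3 := by decide
  have f2 : ∀ j : H, fold (j + 3) (j + 4) = j + 4 ∧ fold (j + 3) (j + 5) = j + 5 ∧
      fold (j + 3) j = j ∧ fold (j + 3) (j + 1) = j ∧ fold (j + 3) (j + 2) = j + 5 ∧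
      fold (j + 3) (j + 3) = j + 4 := by decide
  rw [En_shift ψ j, En_shift (ψ ∘ fold j) j, En_shift (ψ ∘ fold (j + 3)) j]
  simp only [Function.comp_apply, f1 j, f2 j]
  exact e6_key _ _ _ _ _ _ fun hh => h (comp_mir_of_three j ψ hh.1 hh.2.1 hh.2.2)

/-- the non-injective `Rel`-preserving maps -/
def Allowed (ψ : H → H) : Prop :=
  ¬ Function.Injective ψ ∧ ∀ a b, Rel a b → Rel (ψ a) (ψ b)

lemma not_allowed_id : ¬ Allowed id := fun h => h.1 Function.injective_id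

lemma allowed_comp_fold (j : H) {ψ : H → H} (h : ∀ a b, Rel a b → Rel (ψ a) (ψ b)) :
    Allowed (ψ ∘ fold j) := by
  refine ⟨fun hinj => mir_ne j 0 (hinj ?_), fun a b hab => h _ _ (Rel_fold j a b hab)⟩
  simp [fold_mir]

lemma Allowed.comp_mir (j : H) {ψ : H → H} (h : Allowed ψ) : Allowed (ψ ∘ mir j) := by
  refine ⟨fun hinj => h.1 fun a b hab => ?_, fun a b hab => h.2 _ _ ((Rel_mir j a b).2 hab)⟩
  have : mir j a = mir j b := hinj (by simpa [mir_mir] using hab)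
  rw [← mir_mir j a, this, mir_mir]

lemma comp_mir_mir (j : H) (ψ : H → H) : (ψ ∘ mir j) ∘ mir j = ψ := by
  funext a; simp [mir_mir]

lemma allowed_comp_mir_iff (j : H) (ψ : H → H) : Allowed (ψ ∘ mir j) ↔ Allowed ψ :=
  ⟨fun h => comp_mir_mir j ψ ▸ h.comp_mir j, fun h => h.comp_mir j⟩

lemma comp_fold_mir (j : H) (ψ : H → H) : (ψ ∘ fold j) ∘ mir j = ψ ∘ fold j := by
  funext a; simp [fold_mir]

lemma comp_fold3_mir (j : H) (ψ : H → H) : (ψ ∘ fold (j + 3)) ∘ mir j = ψ ∘ fold (j + 3) := by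
  funext a; simp [fold3_mir]

lemma comp_fold_of_folded {j : H} {ψ : H → H} (h : ψ ∘ mir j = ψ) : ψ ∘ fold j = ψ := by
  funext a
  rcases fold_eq_or j a with h1 | h1
  · simp [h1]
  · simpa [h1] using congrFun h a

lemma comp_fold3_of_folded {j : H} {ψ : H → H} (h : ψ ∘ mir j = ψ) : ψ ∘ fold (j + 3) = ψ := by
  refine comp_fold_of_folded ?_
  funext a
  rw [Function.comp_apply, mir_add_three]
  exact congrFun h a

open Classical in
/-- the weight of a non-injective map -/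
noncomputable def wa (ε l : ℝ) (ψ : H → H) : ℝ := if Allowed ψ then ε * l ^ (2 * En ψ) else 0

/-- the weight of a map of the hexagon -/
noncomputable def wt (ε l : ℝ) (ψ : H → H) : ℝ := (if ψ = id then 1 else 0) + wa ε l ψ

section
variable {ε l : ℝ}

lemma wa_nonneg (hε : 0 ≤ ε) (hl : 1 ≤ l) (ψ : H → H) : 0 ≤ wa ε l ψ := by
  unfold wa; split_ifs
  · positivity
  · exact le_rfl

lemma wt_nonneg (hε : 0 ≤ ε) (hl : 1 ≤ l) (ψ : H → H) : 0 ≤ wt ε l ψ := by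
  unfold wt
  have := wa_nonneg hε hl ψ
  split_ifs <;> linarith

lemma wa_id : wa ε l id = 0 := by simp [wa, not_allowed_id]

lemma wt_id : wt ε l id = 1 := by simp [wt, wa_id]

lemma wt_of_ne {ψ : H → H} (h : ψ ≠ id) : wt ε l ψ = wa ε l ψ := by simp [wt, h]

lemma wa_of_allowed {ψ : H → H} (h : Allowed ψ) : wa ε l ψ = ε * l ^ (2 * En ψ) := by
  simp [wa, h]

lemma wt_of_allowed {ψ : H → H} (h : Allowed ψ) : wt ε l ψ = ε * l ^ (2 * En ψ) := by
  rw [wt_of_ne (fun h' => not_allowed_id (h' ▸ h)), wa_of_allowed h]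

lemma wa_comp_mir (j : H) (ψ : H → H) : wa ε l (ψ ∘ mir j) = wa ε l ψ := by
  by_cases h : Allowed ψ
  · rw [wa_of_allowed h, wa_of_allowed (h.comp_mir j), En_mir]
  · have h' : ¬ Allowed (ψ ∘ mir j) := fun h' => h ((allowed_comp_mir_iff j ψ).1 h')
    simp [wa, h, h']

lemma rel_of_wt_ne {ψ : H → H} (h : wt ε l ψ ≠ 0) : ∀ a b, Rel a b → Rel (ψ a) (ψ b) := by
  by_cases h1 : ψ = id
  · subst h1; exact fun a b hab => hab
  · by_cases h2 : Allowed ψ
    · exact h2.2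
    · exact absurd (by simp [wt, wa, h1, h2]) h

lemma sum_wt_mul (M : (H → H) → ℝ) :
    ∑ ψ, wt ε l ψ * M ψ = M id + ∑ ψ, wa ε l ψ * M ψ := by
  simp [wt, add_mul, sum_add_distrib]

lemma sum_wa_le (hε : 0 ≤ ε) (hl : 1 ≤ l) : ∑ ψ, wa ε l ψ ≤ 6 ^ 6 * (ε * l ^ 60) := by
  calc _ ≤ ∑ _ψ : H → H, ε * l ^ 60 := by
        refine sum_le_sum fun ψ _ => ?_
        unfold wa; split_ifs
        · refine mul_le_mul_of_nonneg_left (pow_le_pow_right₀ hl ?_) hε
          have := En_le ψ; omega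
        · positivity
    _ = _ := by
        rw [sum_const, card_univ, Fintype.card_fun, Fintype.card_fin, nsmul_eq_mul]; norm_num

end

end Crest.Agent.N41.Local
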