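import Crest.Agent.N41.Local.Main
import Crest.Agent.N41.Local.Norm

/-!
# Row 41, modules A and A': `LocalStmt` and `TransportStmt`
-/

set_option autoImplicit false
open Finset
open scoped BigOperators

namespace Crest.Agent.N41.Local

section
variable {D : ℕ} {V : Type} [Fintype V] [AddCommGroup V]

lemma opSmall_of_opBd {k0 : V → ℝ} {σ : ℝ} (hm : 𝔼 t, k0 t = 1) (h : OpBd k0 σ) :
    OpSmall k0 σ := by
  intro u v
  set a := 𝔼 s, u s with ha
  have hc : (0 : ℝ) < Fintype.card V := by exact_mod_cast Fintype.card_pos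
  have h1 : ∑ s, (u s - a) = 0 := by
    rw [sum_sub_distrib, sum_const, card_univ, nsmul_eq_mul, ha, Fintype.card_mul_expect, sub_self]
  have h2 := h (fun s => u s - a) v h1
  have h3 : ∀ t, 𝔼 s, k0 (t - s) = 1 := fun t => by
    rw [← hm]; exact Fintype.expect_equiv (Equiv.subLeft t) _ _ fun _ => rfl
  have h4 : 𝔼 s, 𝔼 t, u s * v t * (k0 (t - s) - 1) = 𝔼 s, 𝔼 t, (u s - a) * v t * k0 (t - s) := by
    rw [expect_comm, expect_comm univ univ fun s t => (u s - a) * v t * k0 (t - s)]
    refine expect_congr rfl fun t _ => ?_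
    have e1 : ∀ s, u s * v t * (k0 (t - s) - 1) = u s * v t * k0 (t - s) - v t * u s :=
      fun s => by ring
    have e2 : ∀ s, (u s - a) * v t * k0 (t - s) = u s * v t * k0 (t - s) - a * v t * k0 (t - s) :=
      fun s => by ring
    simp only [e1, e2, expect_sub_distrib, ← mul_expect, h3, ← ha]
    ring
  have h5 : 𝔼 s, (u s - a) ^ 2 ≤ 𝔼 s, u s ^ 2 := by
    have e : ∀ s, (u s - a) ^ 2 = u s ^ 2 - 2 * a * u s + a ^ 2 := fun s => by ring
    simp only [e, expect_add_distrib, expect_sub_distrib, ← mul_expect, ← ha, Fintype.expect_const]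
    nlinarith [sq_nonneg a]
  rw [h4]
  refine h2.trans (mul_le_mul_of_nonneg_right (mul_le_mul_of_nonneg_left h5 (sq_nonneg _)) ?_)
  exact expect_sq_nonneg v

open Classical in
/-- the density of the law of `x b - x a` -/
noncomputable def pairKer (n : (Om D → V) → ℝ) (t : V) : ℝ :=
  ∑ x, n x * if x (ptB D) - x (ptA D) = t then (Fintype.card V : ℝ) else 0

lemma pairKer_nonneg {n : (Om D → V) → ℝ} (h0 : ∀ x, 0 ≤ n x) (t : V) : 0 ≤ pairKer n t :=
  sum_nonneg fun x _ => mul_nonneg (h0 x) (by split_ifs <;> positivity)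

lemma pair_eq {n : (Om D → V) → ℝ} (ht : ∀ (x : Om D → V) (t : V), n (fun c => x c + t) = n x)
    (F : V → V → ℝ) :
    ∑ x, n x * F (x (ptA D)) (x (ptB D)) = 𝔼 s, 𝔼 t, F s t * pairKer n (t - s) := by
  classical
  have h1 : ∑ x, n x * F (x (ptA D)) (x (ptB D)) =
      𝔼 c : V, ∑ x, n x * F (x (ptA D) + c) (x (ptB D) + c) := by
    rw [expect_congr rfl fun c _ => sum_shift ht (fun x => F (x (ptA D)) (x (ptB D))) c,
      Fintype.expect_const]
  rw [h1, expect_sum_comm]
  unfold pairKer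
  simp only [mul_sum, expect_sum_comm]
  refine sum_congr rfl fun x _ => ?_
  refine Fintype.expect_equiv (Equiv.addLeft (x (ptA D))) _ _ fun c => ?_
  rw [← expect_boole_mul (fun t => n x * F (x (ptA D) + c) t) (x (ptB D) + c)]
  refine expect_congr rfl fun t _ => ?_
  have : (x (ptB D) - x (ptA D) = t - (x (ptA D) + c)) ↔ x (ptB D) + c = t := by
    constructor
    · intro h; rw [sub_eq_iff_eq_add] at h; rw [h]; abel
    · rintro rfl; abel
  simp only [Equiv.coe_addLeft, this]
  ring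

lemma expect_diff (κ : V → ℝ) : 𝔼 s, 𝔼 t, κ (t - s) = 𝔼 t, κ t := by
  rw [expect_congr rfl fun s _ =>
    Fintype.expect_equiv (Equiv.subRight s) (fun t => κ (t - s)) κ fun _ => rfl,
    Fintype.expect_const]

lemma ptA_ne_ptB (hD : 1 ≤ D) : ptA D ≠ ptB D := fun h => by
  have := congrFun h ⟨0, hD⟩
  simp [ptA, ptB] at this

end

/-- **Module A**. -/
theorem localStmt : LocalStmt := by
  classical
  intro D K hD _
  obtain ⟨C, σ0, hC, hσ0, H⟩ := localLaw D K
  refine ⟨4 * C, min σ0 (1 / (2 * C)), by linarith, lt_min hσ0 (by positivity), ?_⟩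
  intro V _ _ k0 σ h0 hK hm hop hσ hle
  obtain ⟨L⟩ := H V k0 σ h0 hK (opSmall_of_opBd hm hop) hσ (hle.trans (min_le_left _ _))
  have hσ1 : σ * (2 * C) ≤ 1 := (le_div_iff₀ (by positivity)).1 (hle.trans (min_le_right _ _))
  have hσ2 : σ ≤ 1 := by nlinarith
  have hσD : σ ^ D ≤ σ := pow_le_of_le_one hσ hσ2 (by omega)
  have hσD0 : 0 ≤ σ ^ D := by positivity
  set β := ∑ x, L.fail x with hβ
  have hβ0 : 0 ≤ β := sum_nonneg fun x _ => L.fail_nonneg x
  have hβ1 : β ≤ C * σ := L.fail_mass.trans (by nlinarith)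
  set m := ∑ x, L.nf x with hmm
  have hm1 : m + β = 1 := by rw [hmm, hβ, ← sum_add_distrib]; exact L.total
  have hm2 : 1 / 2 ≤ m := by nlinarith
  have hm0 : 0 < m := by linarith
  have hshift : ∀ (x : Om D → V) (t : V),
      L.nf (fun c => x c + t) + L.fail (fun c => x c + t) = L.nf x + L.fail x := fun x t => by
    rw [L.nf_shift, L.fail_shift]
  have hsq : (4 * C * √σ) ^ 2 = 16 * (C ^ 2 * σ) := by rw [mul_pow, Real.sq_sqrt hσ]; ring
  have hsq' : (C * √σ) ^ 2 = C ^ 2 * σ := by rw [mul_pow, Real.sq_sqrt hσ]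
  have hCσ : 0 ≤ C ^ 2 * σ := by positivity
  have hker : ∀ t, pairKer L.nf t ≤ C * k0 t := fun t => by
    have h1 := L.pair (fun s s' => if t = s' - s then (Fintype.card V : ℝ) else 0)
      fun s s' => by split_ifs <;> positivity
    rw [pair_eq L.nf_shift fun s s' => if t = s' - s then (Fintype.card V : ℝ) else 0,
      expect_diff fun z => (if t = z then (Fintype.card V : ℝ) else 0) * pairKer L.nf z,
      expect_diff fun z => k0 z * if t = z then (Fintype.card V : ℝ) else 0,
      expect_boole_mul] at h1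
    simpa only [mul_comm (k0 _), expect_boole_mul] using h1
  set ψ : V → ℝ := fun t => pairKer L.nf t / m / k0 t with hψ
  have hκ : (fun t => k0 t * ψ t) = fun t => pairKer L.nf t / m := by
    funext t
    rcases (h0 t).eq_or_lt with h | h
    · have h1 := hker t
      have h2 := pairKer_nonneg L.nf_nonneg t
      rw [← h] at h1 ⊢
      rw [show pairKer L.nf t = 0 by linarith]; simp
    · simp only [hψ]; field_simp
  have hpair : ∀ u v : V → ℝ, ∑ x, L.nf x * (u (x (ptA D)) * v (x (ptB D))) =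
      m * 𝔼 s, 𝔼 t, u s * v t * (pairKer L.nf (t - s) / m) := fun u v => by
    rw [pair_eq L.nf_shift fun s t => u s * v t]
    simp only [mul_expect]
    refine expect_congr rfl fun s _ => expect_congr rfl fun t _ => ?_
    field_simp
  refine ⟨fun x => L.nf x + L.fail x, ⟨fun x => add_nonneg (L.nf_nonneg x) (L.fail_nonneg x),
    L.total, hshift, L.rp, fun w g G hg hG => (L.maxcorr w g G hg hG).trans ?_⟩, L.nf, ψ,
    ?_, fun t => ⟨div_nonneg (div_nonneg (pairKer_nonneg L.nf_nonneg t) hm0.le) (h0 t), ?_⟩⟩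
  · refine mul_le_mul_of_nonneg_right (mul_le_mul_of_nonneg_right ?_ (expect_sq_nonneg g))
      (sum_nonneg fun x _ => mul_nonneg (add_nonneg (L.nf_nonneg x) (L.fail_nonneg x))
        (sq_nonneg _))
    rw [hsq, hsq']; linarith
  · rw [hκ]
    refine ⟨L.nf_nonneg, fun x => le_add_of_nonneg_right (L.fail_nonneg x), ?_,
      ⟨m, hm0.le, by linarith, hpair⟩,
      fun t => div_nonneg (pairKer_nonneg L.nf_nonneg t) hm0.le, ?_, fun u v hu => ?_⟩
    · simp only [add_sub_cancel_left]
      exact L.fail_mass.trans (by nlinarith)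
    · have h1 := hpair (fun _ => 1) fun _ => 1
      simp only [mul_one, one_mul] at h1
      rw [expect_diff fun t => pairKer L.nf t / m, ← hmm] at h1
      exact (mul_left_cancel₀ hm0.ne' (by rw [← h1, mul_one])).symm
    · have h1 := L.maxcorr (ptA D) u (fun x => v (x (ptB D))) hu fun x s => by
        rw [Function.update_of_ne (ptA_ne_ptB hD).symm]
      rw [marginal (n := fun x => L.nf x + L.fail x) hshift (ptB D) fun t => v t ^ 2, L.total,
        one_mul, hsq'] at h1
      have h2 : (∑ x, L.fail x * (u (x (ptA D)) * v (x (ptB D)))) ^ 2 ≤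
          (∑ x, L.fail x * u (x (ptA D)) ^ 2) * ∑ x, L.fail x * v (x (ptB D)) ^ 2 :=
        sum_sq_le_sum_mul_sum_of_sq_le_mul univ
          (fun x _ => mul_nonneg (L.fail_nonneg x) (sq_nonneg _))
          (fun x _ => mul_nonneg (L.fail_nonneg x) (sq_nonneg _)) fun x _ => le_of_eq (by ring)
      rw [marginal L.fail_shift (ptA D) fun t => u t ^ 2,
        marginal L.fail_shift (ptB D) fun t => v t ^ 2, ← hβ] at h2
      have h3 := hpair u v
      simp only [add_mul, sum_add_distrib] at h1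
      rw [h3] at h1
      set X := 𝔼 s, 𝔼 t, u s * v t * (pairKer L.nf (t - s) / m)
      set Y := ∑ x, L.fail x * (u (x (ptA D)) * v (x (ptB D)))
      have hu2 := expect_sq_nonneg u
      have hv2 := expect_sq_nonneg v
      set U := 𝔼 s, u s ^ 2
      set W := 𝔼 t, v t ^ 2
      have hUW : 0 ≤ U * W := mul_nonneg hu2 hv2
      have hβ2 : β ^ 2 ≤ C ^ 2 * σ := by
        have := pow_le_pow_left₀ hβ0 hβ1 2
        nlinarith
      have h4 : Y ^ 2 ≤ C ^ 2 * σ * (U * W) := by nlinarith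
      have h5 : (m * X) ^ 2 ≤ 4 * (C ^ 2 * σ * (U * W)) := by
        nlinarith [sq_nonneg (m * X + Y + Y)]
      have h6 : X ^ 2 ≤ 4 * (m * X) ^ 2 := by
        have : 1 ≤ 4 * m ^ 2 := by nlinarith
        nlinarith [sq_nonneg X]
      rw [hsq]
      nlinarith
  · rcases (h0 t).eq_or_lt with h | h
    · simp only [hψ, ← h, div_zero]; positivity
    · simp only [hψ]
      rw [div_le_iff₀ h, div_le_iff₀ hm0]
      have := hker t
      have h1 : 0 ≤ C * k0 t := by positivity
      nlinarith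

/-- **Module A'**. -/
theorem transport : TransportStmt := by
  intro D V _ _ ν k0 C ρ β e ⟨hL, nf, ψ, hS, hψ⟩
  have hsum : ∀ Φ : (Om D → V) → ℝ, ∑ x : Om D → V, Φ (e ∘ x) = ∑ x, Φ x := fun Φ =>
    Fintype.sum_equiv (Equiv.piCongrRight fun _ => e.toEquiv) _ _ fun _ => rfl
  have hexp : ∀ g : V → ℝ, 𝔼 s, g (e s) = 𝔼 s, g s := fun g =>
    Fintype.expect_equiv e.toEquiv _ _ fun _ => rfl
  have hexp' : ∀ g : V → ℝ, 𝔼 s, g (e.symm s) = 𝔼 s, g s := fun g =>
    Fintype.expect_equiv e.symm.toEquiv _ _ fun _ => rfl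
  have hsum' : ∀ g : V → ℝ, ∑ s, g (e.symm s) = ∑ s, g s := fun g =>
    Fintype.sum_equiv e.symm.toEquiv _ _ fun _ => rfl
  have hee : ∀ x : Om D → V, e.symm ∘ e ∘ x = x := fun x => by funext c; simp
  have hpair : ∀ (κ u v : V → ℝ), 𝔼 s, 𝔼 t, u (e.symm s) * v (e.symm t) * κ (t - s) =
      𝔼 s, 𝔼 t, u s * v t * κ (e (t - s)) := fun κ u v => by
    rw [← hexp]
    refine expect_congr rfl fun s _ => ?_
    rw [← hexp]
    simp
  refine ⟨⟨fun x => hL.nonneg _, (hsum ν).trans hL.sum_one, fun x c => ?_, fun i j => ⟨fun x => ?_,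
    fun F => ?_⟩, fun w g G hg hG => ?_⟩, fun x => nf (e ∘ x), ψ ∘ e, ⟨fun x => hS.nf_nonneg _,
    fun x => hS.nf_le _, (hsum fun x => ν x - nf x).trans_le hS.fail_le, ?_,
    fun t => hS.kap_nonneg (e t), (hexp fun t => k0 t * ψ t).trans hS.kap_mean, fun u v hu => ?_⟩,
    fun t => hψ (e t)⟩
  · rw [← hL.transl (e ∘ x) (e c)]
    congr 1; funext w; simp
  · exact (hL.rp i j).1 (e ∘ x)
  · have h1 := (hL.rp i j).2 fun x => F (e.symm ∘ x)
    rw [← hsum] at h1
    simpa only [Function.comp_assoc, hee] using h1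
  · have h1 := hL.maxcorr w (fun s => g (e.symm s)) (fun x => G (e.symm ∘ x))
      ((hsum' g).trans hg) fun x v => by rw [Function.comp_update, hG]
    rw [← hsum, ← hsum fun x => ν x * G (e.symm ∘ x) ^ 2, hexp' fun s => g s ^ 2] at h1
    simpa only [hee, Function.comp_apply, AddEquiv.symm_apply_apply] using h1
  · obtain ⟨m, hm0, hm1, hm⟩ := hS.pair
    refine ⟨m, hm0, hm1, fun u v => ?_⟩
    have h1 := hm (fun s => u (e.symm s)) fun s => v (e.symm s)
    rw [← hsum, hpair fun t => k0 t * ψ t] at h1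
    simpa only [Function.comp_apply, AddEquiv.symm_apply_apply] using h1
  · have h1 := hS.op (fun s => u (e.symm s)) (fun s => v (e.symm s)) ((hsum' u).trans hu)
    rw [hpair fun t => k0 t * ψ t, hexp' fun s => u s ^ 2, hexp' fun s => v s ^ 2] at h1
    exact h1

end Crest.Agent.N41.Local
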